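import Vale.Agent.P193.Words
import Mathlib.Data.Fintype.Basic
import Mathlib.Computability.PartrecCode
import Mathlib.Computability.RE
import Mathlib.Algebra.Order.Group.Unbundled.Abs
import Mathlib.Algebra.Order.Ring.Int

/-!
P193: lattice machines. A configuration is a point of `ℤ^d`; a rule moves `c0 + p u` to `c1 + p' u` coordinatewise
(`p j = 0` means that coordinate is read and written exactly). Each rule also carries a word in the input letters
(its monodromy). `Spec` lists everything the group layers need from the universal machine.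
-/

namespace Vale.P193

/-- Configurations. -/
abbrev Cfg (d : ℕ) := Fin d → ℤ

/-- An affine rule with diagonal scales. -/
structure Rule (d : ℕ) where
  c0 : Cfg d
  c1 : Cfg d
  p : Fin d → ℕ
  p' : Fin d → ℕ
  zero_iff : ∀ j, p j = 0 ↔ p' j = 0

/-- `c` is moved to `c'` by the rule. -/
def Rule.Move {d : ℕ} (ρ : Rule d) (c c' : Cfg d) : Prop :=
  ∃ u : Cfg d, (∀ j, c j = ρ.c0 j + (ρ.p j : ℤ) * u j) ∧ ∀ j, c' j = ρ.c1 j + (ρ.p' j : ℤ) * u j

/-- A machine over the input alphabet `X`. -/
structure Mach (X : Type) where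
  d : ℕ
  nr : ℕ
  rule : Fin nr → Rule d
  tw : Fin nr → Wd X
  root0 : ℕ → Cfg d
  root1 : ℕ → Cfg d

namespace Mach

variable {X : Type} (M : Mach X)

/-- One signed step. -/
def Step (l : Fin M.nr × Bool) (c c' : Cfg M.d) : Prop :=
  if l.2 then (M.rule l.1).Move c c' else (M.rule l.1).Move c' c

/-- `Path w c c'`: the word `w`, read as a group product (last letter first), carries `c` to `c'` step by step. -/
def Path : Wd (Fin M.nr) → Cfg M.d → Cfg M.d → Prop
  | [], c, c' => c = c'
  | l :: w, c, c' => ∃ m, Path w c m ∧ M.Step l m c'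

/-- Monodromy of a word of rules. -/
def mono (w : Wd (Fin M.nr)) : FreeGroup X :=
  wev (fun i => FreeGroup.mk (M.tw i)) w

end Mach

/-- Binary code of an input word over `Fin n`: injective, one fixed-width block per letter. -/
def nOf {n : ℕ} : Wd (Fin n) → ℕ
  | [] => 1
  | σ :: v => nOf v * 2 ^ (2 * n) + (2 * (σ.1 : ℕ) + σ.2.toNat)

/-- Acceptance: the parameter read as a program halts on the code of the word. -/
def Acc {n : ℕ} (e : ℕ) (v : Wd (Fin n)) : Prop :=
  (Nat.Partrec.Code.eval (Denumerable.ofNat Nat.Partrec.Code e) (Nat.pair 0 (nOf v))).Dom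

/-- What the group layers use. `off c` is the guess stored in `c`; `Gen e c` says that `c` is reachable from a
root of parameter `e`. -/
structure Mach.Spec {n : ℕ} (M : Mach (Fin n)) where
  off : Cfg M.d → Wd (Fin n)
  Gen : ℕ → Cfg M.d → Prop
  gen_re : REPred fun p : ℕ × Cfg M.d => Gen p.1 p.2
  nongen_re : REPred fun p : ℕ × Cfg M.d => ¬ Gen p.1 p.2
  root0_comp : Computable M.root0
  root1_comp : Computable M.root1
  off_comp : Computable off
  off_root0 : ∀ e, off (M.root0 e) = []
  off_root1 : ∀ e, off (M.root1 e) = []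
  /-- Completeness: an accepted word is the monodromy of a path between the roots. -/
  reach : ∀ e v, Acc e v → ∃ w, M.Path w (M.root1 e) (M.root0 e) ∧ M.mono w = FreeGroup.mk v
  /-- With the empty word accepted, the component of the roots is exactly `Gen`. -/
  conn : ∀ e, Acc e ([] : Wd (Fin n)) → ∀ c, Gen e c ↔ ∃ w, M.Path w (M.root1 e) c
  /-- Soundness: the monodromy at `c` is `off c` modulo any subgroup containing all accepted words. -/
  sound : ∀ e (W : Subgroup (FreeGroup (Fin n))), (∀ v, Acc e v → FreeGroup.mk v ∈ W) →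
    ∀ w c, M.Path w (M.root1 e) c → (FreeGroup.mk (off c))⁻¹ * M.mono w ∈ W
  /-- The coordinate that stores the guess, and the base of its digits. -/
  Vj : Fin M.d
  D : ℕ
  three_le : 3 ≤ D
  off_len : ∀ c N, |c Vj| < (D : ℤ) ^ N → (off c).length ≤ N
  tw_len : ∀ i, (M.tw i).length ≤ 1
  scale : ∀ i, (M.rule i).p' Vj ≤ D * (M.rule i).p Vj ∧ (M.rule i).p Vj ≤ D * (M.rule i).p' Vj
  root_V : ∀ e, M.root0 e Vj = 0 ∧ M.root1 e Vj = 0
  offs : ∀ i, |(M.rule i).c0 Vj| < D ∧ |(M.rule i).c1 Vj| < D

end Vale.P193
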