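import Mathlib.Computability.Primrec.List
import Mathlib.Data.Fintype.Pi

/-! P193: lattice rules on natural coordinates, computed. -/

namespace Vale.P193.Calc

open Encodable

/-- A natural coordinate vector. -/
abbrev NV := Fin 8 → ℕ

/-- A rule as natural data: `c₀`, scales, `c₁`, new scales. -/
abbrev RData := (NV × NV) × (NV × NV)

/-- The coordinate passes the rule. -/
def Pass (r : RData) (x : NV) (j : Fin 8) : Prop :=
  r.1.1 j ≤ x j ∧ (x j - r.1.1 j) % r.1.2 j = 0

/-- The rule applied to a natural vector. -/
def fwd (r : RData) (x : NV) : Option NV :=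
  if (∀ j, r.1.1 j ≤ x j ∧ (x j - r.1.1 j) % r.1.2 j = 0) then
    some fun j => r.2.1 j + r.2.2 j * ((x j - r.1.1 j) / r.1.2 j)
  else none

theorem primrec_forall_fin {α : Type*} [Primcodable α] {k : ℕ} {p : α → Fin k → Prop}
    [∀ a, DecidablePred (p a)] (h : ∀ j, Primrec fun a => decide (p a j)) :
    Primrec fun a => decide (∀ j, p a j) := by
  have h1 : Primrec fun a => fun j => decide (p a j) :=
    Primrec.fin_curry.2 ((Primrec.fin_curry₁.2 h).comp Primrec.snd Primrec.fst).to₂
  exact ((Primrec.dom_finite fun g : Fin k → Bool => decide (∀ j, g j = true)).comp h1).of_eq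
    fun a => by simp

theorem fwd_primrec : Primrec₂ fwd := by
  have c0 : ∀ j, Primrec fun p : RData × NV => p.1.1.1 j := fun j =>
    Primrec.fin_app.comp (Primrec.fst.comp (Primrec.fst.comp Primrec.fst)) (Primrec.const j)
  have m0 : ∀ j, Primrec fun p : RData × NV => p.1.1.2 j := fun j =>
    Primrec.fin_app.comp (Primrec.snd.comp (Primrec.fst.comp Primrec.fst)) (Primrec.const j)
  have c1 : ∀ j, Primrec fun p : RData × NV => p.1.2.1 j := fun j =>
    Primrec.fin_app.comp (Primrec.fst.comp (Primrec.snd.comp Primrec.fst)) (Primrec.const j)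
  have m1 : ∀ j, Primrec fun p : RData × NV => p.1.2.2 j := fun j =>
    Primrec.fin_app.comp (Primrec.snd.comp (Primrec.snd.comp Primrec.fst)) (Primrec.const j)
  have x : ∀ j, Primrec fun p : RData × NV => p.2 j := fun j =>
    Primrec.fin_app.comp Primrec.snd (Primrec.const j)
  have hd : ∀ j, Primrec fun p : RData × NV =>
      decide (p.1.1.1 j ≤ p.2 j ∧ (p.2 j - p.1.1.1 j) % p.1.1.2 j = 0) := fun j =>
    ((Primrec.nat_le.comp (c0 j) (x j)).and (Primrec.eq.comp
      (Primrec.nat_mod.comp (Primrec.nat_sub.comp (x j) (c0 j)) (m0 j)) (Primrec.const 0))).decide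
  have hy : Primrec fun p : RData × NV => fun j =>
      p.1.2.1 j + p.1.2.2 j * ((p.2 j - p.1.1.1 j) / p.1.1.2 j) :=
    Primrec.fin_curry.2 ((Primrec.fin_curry₁.2 fun j => Primrec.nat_add.comp (c1 j)
      (Primrec.nat_mul.comp (m1 j)
        (Primrec.nat_div.comp (Primrec.nat_sub.comp (x j) (c0 j)) (m0 j)))).comp
      Primrec.snd Primrec.fst).to₂
  exact (Primrec.cond (primrec_forall_fin hd) (Primrec.option_some.comp hy) (Primrec.const none)).of_eq
    fun p => by simp only [fwd]; split_ifs with h <;> simp [h]

/-- Digits, least significant first. -/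
def digs (D : ℕ) : ℕ → List ℕ
  | 0 => []
  | x + 1 => if 2 ≤ D then (x + 1) % D :: digs D ((x + 1) / D) else []
termination_by x => x
decreasing_by exact Nat.div_lt_self (Nat.succ_pos x) (by omega)

theorem digs_primrec (D : ℕ) (hD : 2 ≤ D) : Primrec (digs D) := by
  have h : Primrec₂ fun (_ : Unit) x => digs D x := by
    refine Primrec.nat_strong_rec _ (g := fun (_ : Unit) (L : List (List ℕ)) =>
      some (if L.length = 0 then [] else L.length % D :: (L[L.length / D]?).getD [])) ?_ ?_
    · have hl : Primrec fun p : Unit × List (List ℕ) => p.2.length :=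
        Primrec.list_length.comp Primrec.snd
      exact (Primrec.option_some.comp (Primrec.ite (Primrec.eq.comp hl (Primrec.const 0))
        (Primrec.const ([] : List ℕ))
        (Primrec.list_cons.comp (Primrec.nat_mod.comp hl (Primrec.const D))
          (Primrec.option_getD.comp
            (Primrec.list_getElem?.comp Primrec.snd (Primrec.nat_div.comp hl (Primrec.const D)))
            (Primrec.const []))))).to₂
    · intro _ x
      cases x with
      | zero => simp [digs]
      | succ x =>
        have hlt : (x + 1) / D < x + 1 := Nat.div_lt_self (Nat.succ_pos x) (by omega)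
        simp [digs, hD, hlt]
  exact h.comp (Primrec.const ()) Primrec.id

theorem digs_cons {D a d : ℕ} (hd : 0 < d) (hD : d < D) : digs D (D * a + d) = d :: digs D a := by
  obtain ⟨x, hx⟩ : ∃ x, D * a + d = x + 1 := ⟨D * a + d - 1, by omega⟩
  rw [hx, digs, if_pos (by omega), ← hx, Nat.mul_add_mod, Nat.mod_eq_of_lt hD,
    Nat.mul_add_div (by omega), Nat.div_eq_of_lt hD, Nat.add_zero]

theorem digs_length {D : ℕ} (hD : 2 ≤ D) : ∀ N x, x < D ^ N → (digs D x).length ≤ N := by
  intro N
  induction N with
  | zero => intro x hx; simp at hx; simp [hx, digs]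
  | succ N ih =>
    intro x hx
    cases x with
    | zero => simp [digs]
    | succ x =>
      rw [digs, if_pos hD, List.length_cons]
      have := ih ((x + 1) / D) (Nat.div_lt_of_lt_mul (by rwa [pow_succ'] at hx))
      omega

/-- Natural vectors as integer vectors. -/
def cast (x : NV) : Fin 8 → ℤ := fun j => (x j : ℤ)

theorem cast_injective : Function.Injective cast := fun x y h =>
  funext fun j => Int.ofNat.inj (congrFun h j)

theorem primrec_natCast : Primrec (fun n : ℕ => (n : ℤ)) :=
  Primrec.encode_iff.1 ((Primrec.nat_mul.comp (Primrec.const 2) Primrec.id).of_eq fun _ => rfl)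

theorem primrec_toNat : Primrec Int.toNat := by
  refine (Primrec.ite (Primrec.eq.comp (Primrec.nat_mod.comp Primrec.encode (Primrec.const 2))
    (Primrec.const 0)) (Primrec.nat_div.comp Primrec.encode (Primrec.const 2)) (Primrec.const 0)).of_eq ?_
  rintro (n | n)
  · show (if (2 * n) % 2 = 0 then (2 * n) / 2 else 0) = n
    simp
  · show (if (2 * n + 1) % 2 = 0 then (2 * n + 1) / 2 else 0) = 0
    simp

theorem primrec_cast : Primrec cast :=
  Primrec.fin_curry.2 (primrec_natCast.comp (Primrec.fin_app.comp Primrec.fst Primrec.snd)).to₂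

end Vale.P193.Calc
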