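import Vale.Agent.P193.Mach.Univ

/-! P193: the universal machine meets its specification. -/

namespace Vale.P193

open Turing.PartrecToTM2

theorem code_lt {n : ℕ} (σ : Fin n × Bool) : 2 * (σ.1 : ℕ) + σ.2.toNat < 2 ^ (2 * n) := by
  have := σ.1.isLt
  have := Nat.lt_two_pow_self (n := 2 * n)
  have : σ.2.toNat ≤ 1 := Bool.toNat_le _
  omega

theorem nOf_injective (n : ℕ) : Function.Injective (nOf (n := n)) := by
  have key : ∀ (σ : Fin n × Bool) (v : Wd (Fin n)), 1 < nOf (σ :: v) := fun σ v => by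
    have := code_lt σ
    have h2 : 2 ≤ 2 ^ (2 * n) :=
      Nat.le_self_pow (by have := σ.1.isLt; omega) 2
    have := Nat.mul_le_mul (nOf_pos v) h2
    simp only [nOf]; omega
  intro v
  induction v with
  | nil =>
    intro w h
    cases w with
    | nil => rfl
    | cons σ w => exact absurd h (key σ w).ne
  | cons σ v ih =>
    intro w h
    cases w with
    | nil => exact absurd h.symm (key σ v).ne
    | cons τ w =>
      simp only [nOf] at h
      have h1 := congrArg (· / 2 ^ (2 * n)) h
      have h2 := congrArg (· % 2 ^ (2 * n)) h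
      simp only [Nat.mul_comm _ (2 ^ (2 * n)), Nat.mul_add_div (Nat.two_pow_pos _),
        Nat.div_eq_of_lt (code_lt σ), Nat.div_eq_of_lt (code_lt τ), Nat.add_zero] at h1
      simp only [Nat.mul_comm _ (2 ^ (2 * n)), Nat.mul_add_mod, Nat.mod_eq_of_lt (code_lt σ),
        Nat.mod_eq_of_lt (code_lt τ)] at h2
      have hf : σ = τ := by
        obtain ⟨i, a⟩ := σ
        obtain ⟨j, b⟩ := τ
        have : (i : ℕ) = j ∧ a = b := by cases a <;> cases b <;> simp at h2 ⊢ <;> omega
        exact Prod.ext (Fin.ext this.1) this.2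
      rw [hf, ih h1]

theorem nOf_primrec (n : ℕ) : Primrec (nOf (n := n)) := by
  refine (Primrec.list_foldr Primrec.id (Primrec.const 1)
    (h := fun (_ : Wd (Fin n)) (q : (Fin n × Bool) × ℕ) =>
      q.2 * 2 ^ (2 * n) + (2 * (q.1.1 : ℕ) + q.1.2.toNat)) ?_).of_eq fun v => ?_
  · exact (Primrec.nat_add.comp
      (Primrec.nat_mul.comp (Primrec.snd.comp Primrec.snd) (Primrec.const _))
      ((Primrec.dom_finite fun σ : Fin n × Bool => 2 * (σ.1 : ℕ) + σ.2.toNat).comp
        (Primrec.fst.comp Primrec.snd))).to₂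
  · induction v with
    | nil => rfl
    | cons σ v ih => simp only [id_eq] at ih; simp [nOf, ih]

namespace Mach

variable {X : Type} (M : Mach X)

theorem path_append {w w' : Wd (Fin M.nr)} {c m c' : Cfg M.d} (h : M.Path w c m)
    (h' : M.Path w' m c') : M.Path (w' ++ w) c c' := by
  induction w' generalizing c' with
  | nil => cases h'; exact h
  | cons l w' ih =>
    obtain ⟨m', h1, h2⟩ := h'
    exact ⟨m', ih h1, h2⟩

theorem path_invRev {w : Wd (Fin M.nr)} {c c' : Cfg M.d} (h : M.Path w c c') :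
    M.Path (FreeGroup.invRev w) c' c := by
  induction w generalizing c' with
  | nil => exact Eq.symm (show c = c' from h)
  | cons l w ih =>
    obtain ⟨m, h1, h2⟩ := h
    have h3 : M.Path [(l.1, !l.2)] c' m :=
      ⟨c', rfl, by obtain ⟨i, b⟩ := l; cases b <;> simpa [Step] using h2⟩
    simpa [FreeGroup.invRev] using path_append M h3 (ih h1)

theorem mono_append (w w' : Wd (Fin M.nr)) : M.mono (w ++ w') = M.mono w * M.mono w' :=
  wev_append _ _ _

theorem mono_invRev (w : Wd (Fin M.nr)) : M.mono (FreeGroup.invRev w) = (M.mono w)⁻¹ := by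
  simp [mono, wev, ← FreeGroup.inv_mk]

theorem mono_single (l : Fin M.nr × Bool) :
    M.mono [l] = if l.2 then FreeGroup.mk (M.tw l.1) else (FreeGroup.mk (M.tw l.1))⁻¹ := by
  obtain ⟨i, b⟩ := l
  cases b <;> simp [mono, wev]

end Mach

open Calc

variable (n : ℕ) (U : Univ)

noncomputable section

open Classical

/-- Soundness invariant: the configuration is in a tree and the monodromy is the tagged guess modulo `W`. -/
def Inv (e : ℕ) (W : Subgroup (FreeGroup (Fin n))) (c : Cfg 8) (g : FreeGroup (Fin n)) : Prop :=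
  ∃ t l X, semRun n U e l = some X ∧ c = Calc.cast (render n U e t (hist n U l) X) ∧
    (FreeGroup.mk (tagged t X.word))⁻¹ * g ∈ W

theorem acc_of_stop {e : ℕ} {v : Wd (Fin n)} (h : Sx.Good n U e (.run v TM.stop)) : Acc e v :=
  (U.halts _ _).2 h.2

theorem tagged_kword (t : Bool) (k : Kind n U) (v : Wd (Fin n)) :
    FreeGroup.mk (tagged t (kword n U k ++ v)) =
      FreeGroup.mk (tagged t (kword n U k)) * FreeGroup.mk (tagged t v) := by
  cases t <;> simp [tagged, ← FreeGroup.mul_mk, ← FreeGroup.one_eq_mk]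

theorem kdata_dig (k : Kind n U) (t : Bool) :
    (kdata n U k t).2.1 1 = t.toNat ∧ (kdata n U k t).2.2 1 = 0 ∧
      (kdata n U k t).2.1 2 = dig n U k ∧ (kdata n U k t).2.2 2 = Mh n U := by
  rcases k with σ | _ | ⟨s, d⟩ <;> simp only [kdata]
  · exact ⟨rfl, rfl, rfl, rfl⟩
  · exact ⟨rfl, rfl, rfl, rfl⟩
  · split <;> exact ⟨rfl, rfl, rfl, rfl⟩

theorem cast_render_one (e : ℕ) (t : Bool) (h : ℕ) (X : Sx n) :
    Calc.cast (render n U e t h X) 1 = (t.toNat : ℤ) ∧ Calc.cast (render n U e t h X) 2 = (h : ℤ) := by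
  cases X <;> exact ⟨rfl, rfl⟩

/-- One signed step preserves the invariant. -/
theorem inv_step {e : ℕ} {W : Subgroup (FreeGroup (Fin n))} (hW : ∀ v, Acc e v → FreeGroup.mk v ∈ W)
    (i : RI n U) (b : Bool) {c c' : Cfg 8} {g : FreeGroup (Fin n)} (hI : Inv n U e W c g)
    (hs : if b then (ruleOf n U i).Move c c' else (ruleOf n U i).Move c' c) :
    Inv n U e W c' ((if b then FreeGroup.mk (twOf n U i) else (FreeGroup.mk (twOf n U i))⁻¹) * g) := by
  obtain ⟨t, l, X, hl, rfl, hg⟩ := hI
  have hX := semRun_good n U hl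
  rcases i with ⟨k, t'⟩ | _ <;> cases b <;> simp only [Bool.false_eq_true, if_false, if_true] at hs ⊢
  · -- undoing a rule
    obtain ⟨u, h1, h2⟩ := id hs
    obtain ⟨k1, k2, k3, k4⟩ := kdata_dig n U k t'
    have e1 := h2 1
    have e2 := h2 2
    simp only [ruleOf, mkRule, Calc.cast, k1, k2, k3, k4, Nat.cast_zero, zero_mul, add_zero] at e1 e2
    rw [show (render n U e t (hist n U l) X) 1 = t.toNat from by cases X <;> rfl] at e1
    rw [show (render n U e t (hist n U l) X) 2 = hist n U l from by cases X <;> rfl] at e2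
    obtain rfl : t = t' := by cases t <;> cases t' <;> simp at e1 ⊢
    have hd := dig_lt n U k
    have e3 : hist n U l % Mh n U = dig n U k := by
      have : ((hist n U l % Mh n U : ℕ) : ℤ) = dig n U k := by
        rw [Int.natCast_mod, e2, Int.add_mul_emod_self_left,
          Int.emod_eq_of_lt (by omega) (by exact_mod_cast hd.2)]
      exact_mod_cast this
    rcases l with _ | ⟨k', l⟩
    · simp [hist] at e3
      omega
    · obtain rfl : k = k' := by
        rw [hist, Nat.mul_add_mod, Nat.mod_eq_of_lt (dig_lt n U k').2] at e3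
        exact dig_injective n U e3.symm
      obtain ⟨X1, hX1, hk⟩ := Option.bind_eq_some_iff.1 hl
      have hf : fwd (kdata n U k t) (render n U e t (hist n U l) X1) =
          some (render n U e t (hist n U (k :: l)) X) := by
        rw [kdata_fwd_run n U hX1, if_pos rfl, hl]; rfl
      have hm := (move_cast (kdata_ok n U k t).1 (kdata_ok n U k t).2 _ _).2 ⟨_, hf, rfl⟩
      obtain rfl := move_src_unique _ hs hm
      refine ⟨t, l, X1, hX1, rfl, ?_⟩
      rw [(semStep_good n U (semRun_good n U hX1) hk).2, tagged_kword, mul_inv_rev, mul_assoc] at hg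
      exact hg
  · -- applying a rule
    obtain ⟨y, hy, rfl⟩ := (move_cast (kdata_ok n U k t').1 (kdata_ok n U k t').2 _ _).1 hs
    rw [kdata_fwd_run n U hl] at hy
    split_ifs at hy with ht
    subst ht
    obtain ⟨Y, hY, rfl⟩ := Option.map_eq_some_iff.1 hy
    refine ⟨t, _, Y, hY, rfl, ?_⟩
    obtain ⟨X', hX', hk⟩ := Option.bind_eq_some_iff.1 hY
    obtain rfl : X = X' := Option.some.inj (hl.symm.trans hX')
    rw [(semStep_good n U hX hk).2, tagged_kword]
    simp only [twOf, mul_inv_rev, mul_assoc, inv_mul_cancel_left]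
    exact hg
  · -- undoing the link
    obtain ⟨u, h1, h2⟩ := id hs
    have hn := nd_bounds U U.hstop
    rcases X with v | ⟨v, ⟨q, S⟩⟩
    · have e0 : (0 : ℤ) = nd U TM.stop.1 + 0 * u 0 := h2 0
      omega
    have e0 : (nd U q : ℤ) = nd U TM.stop.1 + 0 * u 0 := h2 0
    have e1 : (t.toNat : ℤ) = 0 + 0 * u 1 := h2 1
    obtain rfl : q = TM.stop.1 := nd_inj U hX.1 U.hstop (by omega)
    obtain rfl : t = false := by cases t <;> simp at e1 ⊢
    obtain rfl : S = TM.stop.2 := by
      funext j
      refine TM.num_eq_zero.1 (Nat.cast_eq_zero (R := ℤ).1 ?_)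
      cases j
      · exact (h2 4).trans (by simp [ruleOf, mkRule, linkData, mkv, zS, Calc.cast])
      · exact (h2 5).trans (by simp [ruleOf, mkRule, linkData, mkv, zS, Calc.cast])
      · exact (h2 6).trans (by simp [ruleOf, mkRule, linkData, mkv, zS, Calc.cast])
      · exact (h2 7).trans (by simp [ruleOf, mkRule, linkData, mkv, zS, Calc.cast])
    have hm := (move_cast (linkData_ok U).1 (linkData_ok U).2
      (render n U e true (hist n U l) (.run v TM.stop)) _).2
      ⟨_, (fwd_link n U hX.okay true _ _).2 ⟨rfl, ⟨v, rfl⟩, rfl⟩, rfl⟩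
    obtain rfl := move_src_unique _ hs hm
    refine ⟨true, l, _, hl, rfl, ?_⟩
    simp only [tagged, if_true, Bool.false_eq_true, if_false, twOf, ← FreeGroup.one_eq_mk, inv_one,
      one_mul] at hg ⊢
    exact W.mul_mem (W.inv_mem (hW _ (acc_of_stop n U hX))) hg
  · -- applying the link
    obtain ⟨y, hy, rfl⟩ := (move_cast (linkData_ok U).1 (linkData_ok U).2 _ _).1 hs
    obtain ⟨rfl, ⟨v, rfl⟩, rfl⟩ := (fwd_link n U hX.okay t _ _).1 hy
    refine ⟨false, l, _, hl, rfl, ?_⟩
    simp only [tagged, if_true, Bool.false_eq_true, if_false, twOf, ← FreeGroup.one_eq_mk, inv_one,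
      one_mul, Sx.word] at hg ⊢
    have := W.mul_mem (hW _ (acc_of_stop n U hX)) hg
    simpa only [mul_inv_cancel_left] using this

theorem inv_path {e : ℕ} {W : Subgroup (FreeGroup (Fin n))} (hW : ∀ v, Acc e v → FreeGroup.mk v ∈ W)
    (w : Wd (Fin (umach n U).nr)) (c : Cfg 8) (h : (umach n U).Path w ((umach n U).root1 e) c) :
    Inv n U e W c ((umach n U).mono w) := by
  induction w generalizing c with
  | nil =>
    refine ⟨true, [], .guess [], rfl, ?_, ?_⟩
    · exact (Eq.symm h).trans rfl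
    · simp [Mach.mono, tagged, Sx.word, ← FreeGroup.one_eq_mk]
  | cons l w ih =>
    obtain ⟨m, h1, h2⟩ := h
    obtain ⟨j, b⟩ := l
    obtain ⟨i, rfl⟩ := ridx_surjective n U j
    rw [show ∀ a : Fin (umach n U).nr × Bool, a :: w = [a] ++ w from fun a => rfl, Mach.mono_append,
      Mach.mono_single, umach_tw]
    refine inv_step n U hW i b (ih m h1) ?_
    simp only [Mach.Step, umach_rule] at h2
    exact h2

theorem tree_path {e : ℕ} (t : Bool) {l : List (Kind n U)} {X : Sx n}
    (h : semRun n U e l = some X) :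
    ∃ w, (umach n U).Path w (Calc.cast (rootNV n U t e)) (Calc.cast (render n U e t (hist n U l) X)) ∧
      (umach n U).mono w = FreeGroup.mk (tagged t X.word) := by
  induction l generalizing X with
  | nil => cases h; exact ⟨[], rfl, by simp [Mach.mono, tagged, Sx.word, ← FreeGroup.one_eq_mk]⟩
  | cons k l ih =>
    obtain ⟨X1, h1, hk⟩ := Option.bind_eq_some_iff.1 h
    obtain ⟨w, hw, hm⟩ := ih h1
    refine ⟨(ridx n U (.inl (k, t)), true) :: w, ⟨_, hw, ?_⟩, ?_⟩
    · have hf : fwd (kdata n U k t) (render n U e t (hist n U l) X1) =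
          some (render n U e t (hist n U (k :: l)) X) := by
        rw [kdata_fwd_run n U h1, if_pos rfl, h]; rfl
      simp only [Mach.Step, if_true, umach_rule]
      exact (move_cast (kdata_ok n U k t).1 (kdata_ok n U k t).2 _ _).2 ⟨_, hf, rfl⟩
    · rw [show ∀ a : Fin (umach n U).nr × Bool, a :: w = [a] ++ w from fun a => rfl, Mach.mono_append,
        hm, Mach.mono_single, umach_tw, (semStep_good n U (semRun_good n U h1) hk).2, tagged_kword]
      rfl

theorem run_guess (e : ℕ) (v : Wd (Fin n)) : semRun n U e (v.map .inl) = some (.guess v) := by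
  induction v with
  | nil => rfl
  | cons σ v ih => simp [semRun, ih, semStep]

theorem run_stop {e : ℕ} {v : Wd (Fin n)} (h : Acc e v) :
    ∃ l, semRun n U e l = some (.run v TM.stop) := by
  have h' := (U.halts (nOf v) e).1 h
  suffices ∀ b, Relation.ReflTransGen TM.MR (U.start, TM.inputStk (nOf v) e) b →
      ∃ l, semRun n U e l = some (.run v b) from this _ h'
  intro b hb
  induction hb with
  | refl => exact ⟨.inr (.inl ()) :: v.map .inl, by simp [semRun, run_guess, semStep]⟩
  | @tail a b _ hab ih =>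
    obtain ⟨l, hl⟩ := ih
    have ha : a.1 ∈ U.T := (semRun_good n U hl).1
    obtain ⟨d, hd, hsee⟩ := TM.exists_sees hab
    refine ⟨.inr (.inr (⟨a.1, ha⟩, ⟨d, hd⟩)) :: l, ?_⟩
    simp only [semRun, hl, Option.bind_some, semStep]
    simp [hsee, show TM.micro a.1 a.2 = some b from hab]

theorem root_path {e : ℕ} {v : Wd (Fin n)} (h : Acc e v) :
    ∃ w, (umach n U).Path w ((umach n U).root1 e) ((umach n U).root0 e) ∧
      (umach n U).mono w = FreeGroup.mk v := by
  obtain ⟨l, hl⟩ := run_stop n U h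
  obtain ⟨w1, p1, m1⟩ := tree_path n U true hl
  obtain ⟨w0, p0, m0⟩ := tree_path n U false hl
  have pl : (umach n U).Path [(ridx n U (.inr ()), true)]
      (Calc.cast (render n U e true (hist n U l) (.run v TM.stop)))
      (Calc.cast (render n U e false (hist n U l) (.run v TM.stop))) := by
    refine ⟨_, rfl, ?_⟩
    simp only [Mach.Step, if_true, umach_rule]
    exact (move_cast (linkData_ok U).1 (linkData_ok U).2 _ _).2
      ⟨_, (fwd_link n U (semRun_good n U hl).okay true _ _).2 ⟨rfl, ⟨v, rfl⟩, rfl⟩, rfl⟩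
  refine ⟨_, Mach.path_append _ p1 (Mach.path_append _ pl (Mach.path_invRev _ p0)), ?_⟩
  rw [Mach.mono_append, Mach.mono_append, Mach.mono_invRev, Mach.mono_single, umach_tw, m0, m1]
  simp [tagged, twOf, Sx.word, ← FreeGroup.one_eq_mk]

theorem gen_conn {e : ℕ} (h : Acc e ([] : Wd (Fin n))) (c : Cfg 8) :
    Gen n U e c ↔ ∃ w, (umach n U).Path w ((umach n U).root1 e) c := by
  constructor
  · rintro ⟨t, l, X, hl, rfl⟩
    obtain ⟨w, hw, -⟩ := tree_path n U t hl
    cases t
    · obtain ⟨w', hw', -⟩ := root_path n U h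
      exact ⟨_, Mach.path_append _ hw' hw⟩
    · exact ⟨w, hw⟩
  · rintro ⟨w, hw⟩
    obtain ⟨t, l, X, hl, hc, -⟩ := inv_path n U (W := ⊤) (fun _ _ => Subgroup.mem_top _) w c hw
    exact ⟨t, l, X, hl, hc⟩

theorem kdata_three (k : Kind n U) (t : Bool) :
    (kdata n U k t).1.1 3 = 0 ∧ (kdata n U k t).2.1 3 < DV n ∧ (kdata n U k t).1.2 3 = 1 ∧
      1 ≤ (kdata n U k t).2.2 3 ∧ (kdata n U k t).2.2 3 ≤ DV n := by
  have h3 : 1 ≤ DV n := by unfold DV; omega
  rcases k with σ | _ | ⟨s, d⟩ <;> simp only [kdata]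
  · exact ⟨rfl, (lcode_bounds n σ).2, rfl, h3, le_rfl⟩
  · exact ⟨rfl, h3, rfl, le_rfl, h3⟩
  · split <;> exact ⟨rfl, h3, rfl, le_rfl, h3⟩

/-- The machine meets the specification. -/
def umachSpec : (umach n U).Spec where
  off := offOf n
  Gen := Gen n U
  gen_re := (gen_computable n U).to_re
  nongen_re := (gen_computable n U).not.to_re
  root0_comp := ((Calc.primrec_cast.comp (primrec_rootNV n U false))).to_comp
  root1_comp := ((Calc.primrec_cast.comp (primrec_rootNV n U true))).to_comp
  off_comp := offOf_comp n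
  off_root0 e := offOf_render n U e false 0 (.guess [])
  off_root1 e := offOf_render n U e true 0 (.guess [])
  reach _ _ h := root_path n U h
  conn _ h c := gen_conn n U h c
  sound e W hW w c h := by
    obtain ⟨t, l, X, hl, rfl, hg⟩ := inv_path n U hW w c h
    rwa [offOf_render]
  Vj := (3 : Fin 8)
  D := DV n
  three_le := by unfold DV; omega
  off_len := offOf_len n
  tw_len i := by
    obtain ⟨j, rfl⟩ := ridx_surjective n U i
    rw [umach_tw]
    rcases j with ⟨σ | _ | _, _ | _⟩ | _ <;> simp [twOf, tagged, kword]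
  scale i := by
    obtain ⟨j, rfl⟩ := ridx_surjective n U i
    rw [umach_rule]
    have h3 : 1 ≤ DV n := by unfold DV; omega
    rcases j with ⟨k, t⟩ | _
    · obtain ⟨-, -, a, b, c⟩ := kdata_three n U k t
      show (kdata n U k t).2.2 3 ≤ DV n * (kdata n U k t).1.2 3 ∧
        (kdata n U k t).1.2 3 ≤ DV n * (kdata n U k t).2.2 3
      rw [a]
      exact ⟨by omega, le_trans h3 (Nat.le_mul_of_pos_right _ b)⟩
    · show 1 ≤ DV n * 1 ∧ 1 ≤ DV n * 1
      omega
  root_V _ := ⟨rfl, rfl⟩
  offs i := by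
    obtain ⟨j, rfl⟩ := ridx_surjective n U i
    rw [umach_rule]
    have h3 : 1 ≤ DV n := by unfold DV; omega
    rcases j with ⟨k, t⟩ | _
    · obtain ⟨a, b, -, -, -⟩ := kdata_three n U k t
      show |(((kdata n U k t).1.1 3 : ℕ) : ℤ)| < _ ∧ |(((kdata n U k t).2.1 3 : ℕ) : ℤ)| < _
      rw [Nat.abs_cast, Nat.abs_cast]
      omega
    · show |((0 : ℕ) : ℤ)| < _ ∧ |((0 : ℕ) : ℤ)| < _
      simp; omega

end

/-- The universal program as a structure. -/
theorem exists_univ : Nonempty Univ := by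
  obtain ⟨T, s, h1, h2, h3, h4⟩ := TM.exists_universal
  exact ⟨⟨T, s, h1, h2, h3, h4⟩⟩

/-- A universal lattice machine exists. -/
theorem exists_mach (n : ℕ) : ∃ M : Mach (Fin n), Nonempty M.Spec :=
  exists_univ.elim fun U => ⟨umach n U, ⟨umachSpec n U⟩⟩

end Vale.P193
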