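import Mathlib.Computability.TuringMachine.ToPartrec
import Mathlib.Computability.PartrecBasis
import Mathlib.Tactic.Ring

/-!
P193: the universal stack machine. A node is a statement of the emulator with the value of its register; one micro
step executes one node. A stack is coded by its base-5 numeral (digits 1..4, so 0 is the empty stack).
-/

namespace Vale.P193.TM

open Turing Turing.PartrecToTM2 Relation

abbrev Prog := TM2.Stmt (fun _ : K' => Γ') Λ' (Option Γ')
abbrev Cfig := TM2.Cfg (fun _ : K' => Γ') Λ' (Option Γ')

/-- The emulator, with its type unfolded. -/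
def prog : Λ' → Prog := tr

abbrev St := Option Prog × Option Γ'
abbrev Stk := K' → List Γ'

/-- One node of a statement. -/
def micro : St → Stk → Option (St × Stk)
  | (some (.push k f q), v), S => some ((some q, v), Function.update S k (f v :: S k))
  | (some (.peek k f q), v), S => some ((some q, f v (S k).head?), S)
  | (some (.pop k f q), v), S => some ((some q, f v (S k).head?), Function.update S k (S k).tail)
  | (some (.load f q), v), S => some ((some q, f v), S)
  | (some (.branch f p q), v), S => some ((some (cond (f v) p q), v), S)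
  | (some (.goto f), v), S => some ((some (prog (f v)), v), S)
  | (some .halt, v), S => some ((none, v), S)
  | (none, _), _ => none

/-- One micro step. -/
def MR (a b : St × Stk) : Prop := micro a.1 a.2 = some b

/-- The halting node with empty stacks. -/
def stop : St × Stk := ((none, none), fun _ => [])

/-- The machine configuration a node leads to. -/
def nextCfg : St → Stk → Cfig
  | (some q, v), S => TM2.stepAux q v S
  | (none, v), S => ⟨none, v, S⟩

/-- The emulator halts with empty output. -/
def Halts (c : Cfig) : Prop := ReflTransGen (fun a b => b ∈ TM2.step prog a) c (halt [])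

theorem nextCfg_stop : nextCfg stop.1 stop.2 = halt [] := by
  simp only [stop, nextCfg, halt, trList]; congr 1; funext k; cases k <;> rfl

theorem halts_of_micro {a : St × Stk} (h : ReflTransGen MR a stop) : Halts (nextCfg a.1 a.2) := by
  induction h using ReflTransGen.head_induction_on with
  | refl => rw [nextCfg_stop]; exact .refl
  | @head a b hab _ ih =>
    obtain ⟨⟨q, v⟩, S⟩ := a
    cases q with
    | none => simp [MR, micro] at hab
    | some q =>
      cases q <;> simp only [MR, micro, Option.some.injEq] at hab <;> subst hab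
      case branch => rename_i f _ _ _; cases hf : f v <;> simpa [nextCfg, hf] using ih
      case goto => exact ih.head (by simp [nextCfg])
      all_goals simpa [nextCfg] using ih

theorem micro_stepAux (q : Prog) : ∀ v S, ReflTransGen MR ((some q, v), S)
    (((TM2.stepAux q v S).l.map prog, (TM2.stepAux q v S).var), (TM2.stepAux q v S).stk) := by
  induction q with
  | push k f q ih | pop k f q ih | peek k f q ih | load f q ih =>
    intro v S
    exact ReflTransGen.head (show MR _ _ from rfl) (by simpa using ih _ _)
  | branch f p q ihp ihq =>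
    intro v S
    cases hf : f v with
    | true => exact ReflTransGen.head (show MR _ ((some p, v), S) by simp [MR, micro, hf])
                (by simpa [hf] using ihp v S)
    | false => exact ReflTransGen.head (show MR _ ((some q, v), S) by simp [MR, micro, hf])
                (by simpa [hf] using ihq v S)
  | goto f => intro v S; exact ReflTransGen.single rfl
  | halt => intro v S; exact ReflTransGen.single rfl

theorem micro_of_halts {c : Cfig} (h : Halts c) :
    ReflTransGen MR ((c.l.map prog, c.var), c.stk) stop := by
  induction h using ReflTransGen.head_induction_on with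
  | refl => rw [show ((halt []).l.map prog, (halt []).var) = stop.1 from rfl,
      show (halt []).stk = stop.2 from congrArg TM2.Cfg.stk nextCfg_stop.symm]
  | @head a b hab _ ih =>
    obtain ⟨_ | l, v, S⟩ := a
    · cases hab
    · obtain rfl : TM2.stepAux (prog l) v S = b := Option.some_inj.1 hab
      exact (micro_stepAux (prog l) v S).trans ih

/-! ### Numerals -/

/-- The digit of a symbol. -/
def digit : Γ' → ℕ
  | .consₗ => 1
  | .cons => 2
  | .bit0 => 3
  | .bit1 => 4

theorem digit_bounds (g : Γ') : 1 ≤ digit g ∧ digit g < 5 := by cases g <;> simp [digit]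

/-- The numeral of a stack. -/
def num : List Γ' → ℕ
  | [] => 0
  | g :: l => 5 * num l + digit g

/-- The symbol with a given digit. -/
def top : ℕ → Option Γ'
  | 1 => some .consₗ
  | 2 => some .cons
  | 3 => some .bit0
  | 4 => some .bit1
  | _ => none

theorem num_read (l : List Γ') :
    num l = 5 * num l.tail + num l % 5 ∧ top (num l % 5) = l.head? := by
  cases l with
  | nil => simp [num, top]
  | cons g l => cases g <;> simp [num, digit, top, Nat.add_mod]

theorem num_append (l l' : List Γ') : num (l ++ l') = 5 ^ l.length * num l' + num l := by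
  induction l with
  | nil => simp [num]
  | cons g l ih => simp [num, ih, pow_succ]; ring

theorem num_eq_zero {l : List Γ'} : num l = 0 ↔ l = [] := by
  cases l with
  | nil => simp [num]
  | cons g l => have := digit_bounds g; simp [num]; omega

theorem num_replicate (j : ℕ) : num (List.replicate j Γ'.bit1) + 1 = 5 ^ j := by
  induction j with
  | zero => simp [num]
  | succ j ih => simp [List.replicate_succ, num, digit, pow_succ]; omega

theorem num_lt (l : List Γ') : num l < 5 ^ l.length := by
  induction l with
  | nil => simp [num]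
  | cons g l ih => have := digit_bounds g; simp [num, pow_succ]; omega

theorem trNat_bit (b : Bool) {m : ℕ} (hm : m ≠ 0) :
    trNat (Nat.bit b m) = (if b then Γ'.bit1 else Γ'.bit0) :: trNat m := by
  simp only [trNat, ← Num.ofNat'_eq, Num.ofNat'_bit]
  rcases h : Num.ofNat' m with _ | p
  · exfalso
    have := Num.to_of_nat m
    rw [← Num.ofNat'_eq, h] at this
    exact hm this.symm
  · cases b <;> rfl

theorem trNat_one : trNat 1 = [Γ'.bit1] := by simp [trNat, trNum, trPosNum]

/-- The `w` low bits of a number, lowest first. -/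
def bits : ℕ → ℕ → List Γ'
  | 0, _ => []
  | w + 1, c => (if c % 2 = 1 then Γ'.bit1 else Γ'.bit0) :: bits w (c / 2)

theorem bits_length (w c : ℕ) : (bits w c).length = w := by
  induction w generalizing c with
  | zero => rfl
  | succ w ih => simp [bits, ih]

theorem trNat_block {m : ℕ} (hm : m ≠ 0) :
    ∀ w c, c < 2 ^ w → trNat (m * 2 ^ w + c) = bits w c ++ trNat m := by
  intro w
  induction w with
  | zero => intro c hc; simp at hc; simp [hc, bits]
  | succ w ih =>
    intro c hc
    have h0 : m * 2 ^ w + c / 2 ≠ 0 := by
      have := Nat.mul_pos (Nat.pos_of_ne_zero hm) (Nat.two_pow_pos w)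
      omega
    have h1 : m * 2 ^ (w + 1) + c = Nat.bit (decide (c % 2 = 1)) (m * 2 ^ w + c / 2) := by
      rw [pow_succ, ← Nat.mul_assoc, Nat.bit_val]
      rcases Nat.mod_two_eq_zero_or_one c with h | h <;> simp [h] <;> omega
    rw [h1, trNat_bit _ h0, ih _ (by rw [pow_succ] at hc; omega)]
    simp [bits]

theorem trNat_ones (j : ℕ) : trNat (2 ^ (j + 1) - 1) = List.replicate (j + 1) Γ'.bit1 := by
  induction j with
  | zero => simpa using trNat_one
  | succ j ih =>
    have h : 2 ^ (j + 1 + 1) - 1 = Nat.bit true (2 ^ (j + 1) - 1) := by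
      rw [Nat.bit_val, pow_succ 2 (j + 1)]
      have := Nat.two_pow_pos (j + 1)
      simp; omega
    have h0 : 2 ^ (j + 1) - 1 ≠ 0 := by
      have := Nat.two_pow_pos j
      rw [pow_succ]; omega
    rw [h, trNat_bit _ h0, ih]
    rfl

/-- The numeral of the stack holding the list `[1, 2^(e+1) - 1]`. -/
def rootNum (e : ℕ) : ℕ := 5 * (5 * (5 ^ (e + 1) * 2 + (5 ^ (e + 1) - 1)) + 2) + 4

theorem num_root (e : ℕ) : num (trList [1, 2 ^ (e + 1) - 1]) = rootNum e := by
  have h := num_replicate (e + 1)
  simp only [trList, trNat_one, trNat_ones, List.cons_append, List.nil_append, num, num_append,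
    List.length_replicate, digit, rootNum]
  omega

/-! ### What a node does to the numerals -/

/-- The stack touched by a node when its top digit is `d`, with the two scales and digits, and the next node. -/
def act : St → ℕ → Option (St × Option (K' × (ℕ × ℕ) × (ℕ × ℕ)))
  | (some (.push k f q), v), _ => some ((some q, v), some (k, (1, 0), (5, digit (f v))))
  | (some (.peek k f q), v), d => some ((some q, f v (top d)), some (k, (5, d), (5, d)))
  | (some (.pop k f q), v), d => some ((some q, f v (top d)), some (k, (5, d), (1, 0)))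
  | (some (.load f q), v), _ => some ((some q, f v), none)
  | (some (.branch f p q), v), _ => some ((some (cond (f v) p q), v), none)
  | (some (.goto f), v), _ => some ((some (prog (f v)), v), none)
  | (some .halt, v), _ => some ((none, v), none)
  | (none, _), _ => none

/-- `d` is the top digit seen by the node. -/
def Sees (s : St) (S : Stk) (d : ℕ) : Prop :=
  match act s d with
  | some (_, some (k, (m, c), _)) => num (S k) % m = c
  | some (_, none) => True
  | none => False

theorem act_bounds {s s' : St} {d : ℕ} {k : K'} {m c m' c' : ℕ} (hd : d < 5)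
    (h : act s d = some (s', some (k, (m, c), (m', c')))) :
    c < m ∧ c' < m' ∧ (m = 1 ∨ m = 5) ∧ (m' = 1 ∨ m' = 5) := by
  obtain ⟨_ | q, v⟩ := s
  · simp [act] at h
  cases q <;> simp [act] at h <;> obtain ⟨-, -, ⟨rfl, rfl⟩, rfl, rfl⟩ := h
  · exact ⟨by omega, (digit_bounds _).2, by omega, by omega⟩
  all_goals exact ⟨by omega, by omega, by omega, by omega⟩

/-- The effect of a node on numerals is the micro step. -/
theorem micro_act {s : St} {S : Stk} {d : ℕ} (h : Sees s S d) :
    ∃ s' S' o, micro s S = some (s', S') ∧ act s d = some (s', o) ∧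
      match o with
      | none => S' = S
      | some (k, (m, c), (m', c')) => num (S k) = m * (num (S k) / m) + c ∧
          num (S' k) = m' * (num (S k) / m) + c' ∧ ∀ j, j ≠ k → S' j = S j := by
  obtain ⟨_ | q, v⟩ := s
  · simp [Sees, act] at h
  cases q <;> simp only [Sees, act] at h <;> simp only [micro, act, Option.some.injEq]
  case push k f q =>
    exact ⟨_, _, _, rfl, rfl, by simp, by simp [num], fun j hj => by simp [hj]⟩
  case peek k f q =>
    obtain ⟨h1, h2⟩ := num_read (S k)
    rw [h] at h1 h2
    refine ⟨_, _, some (k, (5, d), (5, d)), rfl, by rw [h2], ?_, ?_, fun j _ => rfl⟩ <;> omega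
  case pop k f q =>
    obtain ⟨h1, h2⟩ := num_read (S k)
    rw [h] at h1 h2
    refine ⟨_, _, some (k, (5, d), (1, 0)), rfl, by rw [h2], ?_, ?_, fun j hj => by simp [hj]⟩
    · omega
    · simp only [Function.update_self]; omega
  all_goals exact ⟨_, _, _, rfl, rfl, rfl⟩

theorem exists_sees {s : St} {S : Stk} {b : St × Stk} (h : micro s S = some b) :
    ∃ d, d < 5 ∧ Sees s S d := by
  obtain ⟨_ | q, v⟩ := s
  · simp [micro] at h
  cases q
  case push k f q => exact ⟨0, by omega, by simp [Sees, act, Nat.mod_one]⟩
  case peek k f q | pop k f q =>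
    exact ⟨num (S k) % 5, Nat.mod_lt _ (by omega), by simp [Sees, act]⟩
  all_goals exact ⟨0, by omega, by simp [Sees, act]⟩

/-! ### The universal program -/

theorem exists_closed (c : ToPartrec.Code) : ∃ T : Finset St, stop.1 ∈ T ∧
    ((some (prog (trNormal c .halt)), none) : St) ∈ T ∧
    ∀ s ∈ T, ∀ S b, micro s S = some b → b.1 ∈ T := by
  classical
  let : Inhabited Λ' := ⟨trNormal c .halt⟩
  set S := codeSupp c Cont'.halt with hS
  have ss : TM2.Supports prog S := tr_supports c .halt
  let T : Finset St := TM2.stmts prog S ×ˢ (Finset.univ : Finset (Option Γ'))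
  have memT : ∀ q v, ((q, v) : St) ∈ T ↔ q ∈ TM2.stmts prog S := fun q v => by simp [T]
  refine ⟨T, (memT _ _).2 (by simp [stop, TM2.stmts]), (memT _ _).2 ?_, ?_⟩
  · simp only [TM2.stmts, Finset.mem_insertNone, Finset.mem_biUnion]
    rintro a ⟨⟩
    exact ⟨_, ss.1, TM2.stmts₁_self⟩
  rintro ⟨q, v⟩ hs S' b hb
  rw [memT] at hs
  have sub : ∀ p : Prog, ∀ q' : Prog, q = some p → q' ∈ TM2.stmts₁ p →
      some q' ∈ TM2.stmts prog S := fun p q' e hq => TM2.stmts_trans hq (e ▸ hs)
  rcases q with _ | q
  · simp [micro] at hb
  cases q <;> simp only [micro, Option.some.injEq] at hb <;> subst hb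
  case branch f p q =>
    refine (memT _ _).2 (sub _ _ rfl ?_)
    cases f v <;> simp [TM2.stmts₁, TM2.stmts₁_self]
  case goto f =>
    have := TM2.stmts_supportsStmt ss hs v
    refine (memT _ _).2 ?_
    simp only [TM2.stmts, Finset.mem_insertNone, Finset.mem_biUnion]
    rintro a ⟨⟩
    exact ⟨_, this, TM2.stmts₁_self⟩
  case halt => exact (memT _ _).2 (by simp [TM2.stmts])
  all_goals exact (memT _ _).2 (sub _ _ rfl (by simp [TM2.stmts₁, TM2.stmts₁_self]))

/-- The input configuration: `[a, 2^(e+1) - 1]` on the main stack. -/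
def inputStk (a e : ℕ) : Stk := K'.elim (trList [a, 2 ^ (e + 1) - 1]) [] [] []

/-- There is a finite closed program whose halting runs are exactly the halting computations. -/
theorem exists_universal : ∃ (T : Finset St) (start : St), stop.1 ∈ T ∧ start ∈ T ∧
    (∀ s ∈ T, ∀ S b, micro s S = some b → b.1 ∈ T) ∧
    ∀ a e, (Nat.Partrec.Code.eval (Denumerable.ofNat Nat.Partrec.Code e) (Nat.pair 0 a)).Dom ↔
      ReflTransGen MR (start, inputStk a e) stop := by
  let dec : ℕ →. ℕ := fun b => Nat.rfind fun e => Part.some (decide (2 ^ (e + 1) = b + 1))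
  have hdec : Partrec dec := by
    have hpow : Primrec fun e : ℕ => 2 ^ (e + 1) :=
      (Primrec.nat_rec₁ 2 (Primrec.nat_mul.comp₂ Primrec₂.right (Primrec₂.const 2))).of_eq
        fun e => by induction e with
        | zero => rfl
        | succ e ih => simp [ih, pow_succ]
    have hd : Computable fun p : ℕ × ℕ => decide (2 ^ (p.2 + 1) = p.1 + 1) :=
      (Primrec.eq.decide.comp (hpow.comp Primrec.snd) (Primrec.succ.comp Primrec.fst)).to_comp
    exact Partrec.rfind hd.partrec.to₂
  let f : ℕ → ℕ →. ℕ := fun a b =>
    (dec b).bind fun e => Nat.Partrec.Code.eval (Denumerable.ofNat Nat.Partrec.Code e) (Nat.pair 0 a)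
  have hf : Partrec₂ f := by
    refine Partrec.bind (hdec.comp Computable.snd) ?_
    exact Nat.Partrec.Code.eval_part.comp
      ((Computable.ofNat Nat.Partrec.Code).comp Computable.snd)
      (Primrec₂.natPair.to_comp.comp (Computable.const 0) (Computable.fst.comp Computable.fst))
  obtain ⟨c, hc⟩ := ToPartrec.Code.exists_code (Nat.Partrec'.part_iff₂.2 hf)
  obtain ⟨T, hstop, hstart, hclosed⟩ := exists_closed (ToPartrec.Code.nil.comp c)
  refine ⟨T, _, hstop, hstart, hclosed, fun a e => ?_⟩
  set b := 2 ^ (e + 1) - 1 with hb
  have hdb : dec b = Part.some e := by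
    refine Part.eq_some_iff.2 (Nat.mem_rfind.2 ⟨?_, fun {m} hm => ?_⟩)
    · have := Nat.two_pow_pos (e + 1)
      simp [hb]; omega
    · have : 2 ^ (m + 1) < 2 ^ (e + 1) := Nat.pow_lt_pow_right (by omega) (by omega)
      simp [hb]; omega
  have hcab : c.eval [a, b] = pure <$> f a b := hc ⟨[a, b], rfl⟩
  have hfe : f a b = Nat.Partrec.Code.eval (Denumerable.ofNat Nat.Partrec.Code e) (Nat.pair 0 a) := by
    simp [f, hdb]
  rw [← hfe]
  set d := ToPartrec.Code.nil.comp c with hd
  have hnil : ∀ v, ToPartrec.Code.nil.eval v = Part.some [] := fun v => ToPartrec.Code.nil_eval v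
  have hcomp : d.eval [a, b] = (c.eval [a, b]).bind ToPartrec.Code.nil.eval := by
    rw [hd, ToPartrec.Code.comp_eval]; rfl
  have hev : ∀ x, x ∈ StateTransition.eval (TM2.step prog) (init d [a, b]) ↔
      (f a b).Dom ∧ x = halt [] := by
    intro x
    show x ∈ StateTransition.eval (TM2.step tr) (init _ _) ↔ _
    rw [tr_eval]
    refine (Part.mem_map_iff _).trans ⟨?_, fun hh => ⟨[], ?_, hh.2.symm⟩⟩
    · rintro ⟨v, hv, rfl⟩
      rw [hcomp, hcab] at hv
      obtain ⟨w, hw, hv⟩ := Part.mem_bind_iff.1 hv
      rw [hnil] at hv
      obtain ⟨z, hz, -⟩ := (Part.mem_map_iff _).1 hw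
      exact ⟨Part.dom_iff_mem.2 ⟨z, hz⟩, by rw [Part.mem_some_iff.1 hv]⟩
    · rw [hcomp, hcab]
      obtain ⟨z, hz⟩ := Part.dom_iff_mem.1 hh.1
      exact Part.mem_bind (Part.mem_map _ hz) (by rw [hnil]; exact Part.mem_some _)
  constructor
  · intro h
    exact micro_of_halts (StateTransition.mem_eval.1 ((hev _).2 ⟨h, rfl⟩)).1
  · intro h
    have h1 : Halts (init d [a, b]) :=
      ReflTransGen.head (show nextCfg (some (prog (trNormal d .halt)), none) (inputStk a e) ∈
        TM2.step prog _ from rfl) (halts_of_micro h)
    exact ((hev (halt [])).1 (StateTransition.mem_eval.2 ⟨h1, rfl⟩)).1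

end Vale.P193.TM
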