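import Vale.Agent.P193.Mach.Defs
import Vale.Agent.P193.Mach.TM
import Vale.Agent.P193.Mach.Calc
import Mathlib.Tactic.FinCases
import Mathlib.Data.Fintype.Sum
import Mathlib.Data.Fintype.Prod
import Mathlib.Data.Fintype.EquivFin
import Mathlib.Tactic.Linarith
import Mathlib.Tactic.Ring
import Mathlib.Data.Fin.VecNotation

/-!
P193: the rules of the universal machine. Coordinates: node, tag, history, guess, four stacks. Every rule but the link
appends its digit to the history and leaves the tag unchanged; the link changes the tag of the halting configuration.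
-/

namespace Vale.P193

open Turing.PartrecToTM2 Calc

/-- A lattice rule from natural data. -/
def mkRule (r : RData) (h : ∀ j, r.1.2 j = 0 ↔ r.2.2 j = 0) : Rule 8 where
  c0 := Calc.cast r.1.1
  c1 := Calc.cast r.2.1
  p := r.1.2
  p' := r.2.2
  zero_iff := h

theorem move_cast {r : RData} (h : ∀ j, r.1.2 j = 0 ↔ r.2.2 j = 0)
    (hlt : ∀ j, r.1.2 j ≠ 0 → r.1.1 j < r.1.2 j) (x : NV) (c' : Fin 8 → ℤ) :
    (mkRule r h).Move (Calc.cast x) c' ↔ ∃ y, fwd r x = some y ∧ c' = Calc.cast y := by
  constructor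
  · rintro ⟨u, h1, h2⟩
    have key : ∀ j, (r.1.1 j ≤ x j ∧ (x j - r.1.1 j) % r.1.2 j = 0) ∧
        (r.1.2 j : ℤ) * u j = (r.1.2 j : ℤ) * (((x j - r.1.1 j) / r.1.2 j : ℕ) : ℤ) := by
      intro j
      have e : (x j : ℤ) = r.1.1 j + (r.1.2 j : ℤ) * u j := h1 j
      by_cases hp : r.1.2 j = 0
      · simp [hp] at e ⊢
        omega
      · have hu : 0 ≤ u j := by
          by_contra hneg
          have := hlt j hp
          nlinarith
        obtain ⟨w, hw⟩ := Int.eq_ofNat_of_zero_le hu
        have e' : x j = r.1.1 j + r.1.2 j * w := by rw [hw] at e; exact_mod_cast e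
        rw [e', Nat.add_sub_cancel_left, Nat.mul_mod_right, Nat.mul_div_cancel_left _ (by omega), hw]
        simp
    refine ⟨_, if_pos fun j => (key j).1, funext fun j => ?_⟩
    have e := h2 j
    by_cases hp : r.1.2 j = 0
    · simp [mkRule, Calc.cast, hp, (h j).1 hp] at e ⊢
      exact e
    · have hu := mul_left_cancel₀ (by exact_mod_cast hp) (key j).2
      rw [hu] at e
      simp only [mkRule, Calc.cast, Nat.cast_add, Nat.cast_mul] at e ⊢
      exact e
  · rintro ⟨y, hy, rfl⟩
    unfold fwd at hy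
    split_ifs at hy with hok
    cases hy
    refine ⟨fun j => (((x j - r.1.1 j) / r.1.2 j : ℕ) : ℤ), fun j => ?_, fun j => by simp [mkRule, Calc.cast]⟩
    obtain ⟨h1, h2⟩ := hok j
    have := Nat.div_add_mod (x j - r.1.1 j) (r.1.2 j)
    have e : x j = r.1.1 j + r.1.2 j * ((x j - r.1.1 j) / r.1.2 j) := by omega
    show ((x j : ℤ)) = (r.1.1 j : ℤ) + (r.1.2 j : ℤ) * (((x j - r.1.1 j) / r.1.2 j : ℕ) : ℤ)
    exact_mod_cast e

theorem move_src_unique {d : ℕ} (ρ : Rule d) {a b c : Cfg d} (ha : ρ.Move a c) (hb : ρ.Move b c) :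
    a = b := by
  obtain ⟨u, u1, u2⟩ := ha
  obtain ⟨v, v1, v2⟩ := hb
  funext j
  have e := (u2 j).symm.trans (v2 j)
  rw [u1 j, v1 j]
  by_cases hp : ρ.p' j = 0
  · simp [(ρ.zero_iff j).2 hp]
  · simp only [add_right_inj, mul_eq_mul_left_iff] at e
    rcases e with e | e
    · rw [e]
    · exact absurd (by exact_mod_cast e) hp

/-- A coordinate vector. -/
def mkv (a b c d : ℕ) (S : K' → ℕ) : NV := ![a, b, c, d, S .main, S .rev, S .aux, S .stack]

/-- The condition at one coordinate. -/
def Ok (c p x : ℕ) : Prop := c ≤ x ∧ (x - c) % p = 0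

/-- The new value of one coordinate. -/
def out (c p c' p' x : ℕ) : ℕ := c' + p' * ((x - c) / p)

theorem ok_pin {c x : ℕ} : Ok c 0 x ↔ x = c := by simp [Ok]; omega

theorem ok_free (x : ℕ) : Ok 0 1 x := by simp [Ok, Nat.mod_one]

theorem ok_res {c p x : ℕ} (h : c < p) : Ok c p x ↔ x % p = c := by
  constructor
  · rintro ⟨h1, h2⟩
    rw [← Nat.sub_add_cancel h1, Nat.add_mod, h2, Nat.zero_add, Nat.mod_mod, Nat.mod_eq_of_lt h]
  · intro e
    have := Nat.div_add_mod x p
    refine ⟨by omega, ?_⟩
    rw [show x - c = p * (x / p) by omega, Nat.mul_mod_right]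

theorem out_pin (c c' x : ℕ) : out c 0 c' 0 x = c' := by simp [out]

theorem out_free (c' p' x : ℕ) : out 0 1 c' p' x = c' + p' * x := by simp [out]

theorem out_res {c p c' p' x : ℕ} (h : x % p = c) (hp : 0 < p) :
    out c p c' p' x = p' * (x / p) + c' := by
  have := Nat.div_add_mod x p
  rw [out, show x - c = p * (x / p) by omega, Nat.mul_div_cancel_left _ hp, Nat.add_comm]

theorem fwd_mkv (a b c d : ℕ) (S : K' → ℕ) (pa pb pc pd : ℕ) (P : K' → ℕ) (a' b' c' d' : ℕ)
    (S' : K' → ℕ) (qa qb qc qd : ℕ) (Q : K' → ℕ) (x y z w : ℕ) (X : K' → ℕ) [Decidable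
      (Ok a pa x ∧ Ok b pb y ∧ Ok c pc z ∧ Ok d pd w ∧ ∀ k, Ok (S k) (P k) (X k))] :
    fwd ((mkv a b c d S, mkv pa pb pc pd P), (mkv a' b' c' d' S', mkv qa qb qc qd Q)) (mkv x y z w X) =
      if Ok a pa x ∧ Ok b pb y ∧ Ok c pc z ∧ Ok d pd w ∧ ∀ k, Ok (S k) (P k) (X k) then
        some (mkv (out a pa a' qa x) (out b pb b' qb y) (out c pc c' qc z) (out d pd d' qd w)
          fun k => out (S k) (P k) (S' k) (Q k) (X k))
      else none := by
  have hK : (∀ k, Ok (S k) (P k) (X k)) ↔ Ok (S .main) (P .main) (X .main) ∧ Ok (S .rev) (P .rev) (X .rev) ∧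
      Ok (S .aux) (P .aux) (X .aux) ∧ Ok (S .stack) (P .stack) (X .stack) :=
    ⟨fun h => ⟨h _, h _, h _, h _⟩, fun h k => by cases k <;> simp [h]⟩
  unfold fwd
  split_ifs with h1 h2 h2
  · congr 1
    funext j
    fin_cases j <;> rfl
  · exact absurd ⟨h1 0, h1 1, h1 2, h1 3, hK.2 ⟨h1 4, h1 5, h1 6, h1 7⟩⟩ h2
  · refine absurd (fun j => ?_) h1
    obtain ⟨ha, hb, hc, hd, hS⟩ := h2
    obtain ⟨hs1, hs2, hs3, hs4⟩ := hK.1 hS
    fin_cases j
    exacts [ha, hb, hc, hd, hs1, hs2, hs3, hs4]
  · rfl

/-- The universal program. -/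
structure Univ where
  T : Finset TM.St
  start : TM.St
  hstop : TM.stop.1 ∈ T
  hstart : start ∈ T
  closed : ∀ s ∈ T, ∀ S b, TM.micro s S = some b → b.1 ∈ T
  halts : ∀ a e, (Nat.Partrec.Code.eval (Denumerable.ofNat Nat.Partrec.Code e) (Nat.pair 0 a)).Dom ↔
    Relation.ReflTransGen TM.MR (start, TM.inputStk a e) TM.stop

variable (n : ℕ) (U : Univ)

noncomputable section

open Classical

/-- The rules that append to the history. -/
abbrev Kind := (Fin n × Bool) ⊕ Unit ⊕ (↥U.T × Fin 5)

/-- The digit of a rule. -/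
def dig (k : Kind n U) : ℕ := Fintype.equivFin (Kind n U) k + 1

/-- The base of the history. -/
def Mh : ℕ := Fintype.card (Kind n U) + 2

theorem dig_lt (k : Kind n U) : 0 < dig n U k ∧ dig n U k < Mh n U := by
  have := (Fintype.equivFin (Kind n U) k).isLt
  simp only [dig, Mh]; omega

theorem dig_injective : Function.Injective (dig n U) := fun a b h =>
  (Fintype.equivFin (Kind n U)).injective (Fin.ext (by simpa [dig] using h))

/-- The number of a node. -/
def nd (s : TM.St) : ℕ := if h : s ∈ U.T then (U.T.equivFin ⟨s, h⟩ : ℕ) + 1 else 0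

/-- A node that never occurs. -/
def dead : ℕ := U.T.card + 1

theorem nd_bounds {s : TM.St} (h : s ∈ U.T) : 0 < nd U s ∧ nd U s < dead U := by
  have := (U.T.equivFin ⟨s, h⟩).isLt
  simp [nd, dead, h]

theorem nd_inj {s s' : TM.St} (h : s ∈ U.T) (h' : s' ∈ U.T) (e : nd U s = nd U s') : s = s' := by
  simp only [nd, h, h', dite_true, Nat.add_right_cancel_iff] at e
  simpa using U.T.equivFin.injective (Fin.ext e)

/-- The base of the guess. -/
def DV : ℕ := 2 * n + 3

/-- The digit of an input letter. -/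
def lcode (σ : Fin n × Bool) : ℕ := Fintype.equivFin (Fin n × Bool) σ + 1

theorem lcode_bounds (σ : Fin n × Bool) : 0 < lcode n σ ∧ lcode n σ < DV n := by
  have := (Fintype.equivFin (Fin n × Bool) σ).isLt
  simp [Fintype.card_prod] at this
  simp [lcode, DV]; omega

/-- The guess as a number. -/
def Vc : Wd (Fin n) → ℕ
  | [] => 0
  | σ :: v => DV n * Vc v + lcode n σ

/-- No stack condition. -/
def zS : K' → ℕ := fun _ => 0

/-- Identity scale on the stacks. -/
def oS : K' → ℕ := fun _ => 1

/-- The number pushed on the main stack by a guessed letter. -/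
def push (σ : Fin n × Bool) : ℕ := TM.num (TM.bits (2 * n) (2 * (σ.1 : ℕ) + σ.2.toNat))

/-- The data of a rule. -/
def kdata (k : Kind n U) (t : Bool) : RData :=
  match k with
  | .inl σ => ((mkv 0 t.toNat 0 0 zS, mkv 0 0 1 1 oS),
      (mkv 0 t.toNat (dig n U k) (lcode n σ) (Function.update zS .main (push n σ)),
        mkv 0 0 (Mh n U) (DV n) (Function.update oS .main (5 ^ (2 * n)))))
  | .inr (.inl _) => ((mkv 0 t.toNat 0 0 zS, mkv 0 0 1 1 oS),
      (mkv (nd U U.start) t.toNat (dig n U k) 0 zS, mkv 0 0 (Mh n U) 1 oS))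
  | .inr (.inr (s, d)) =>
    match TM.act s.1 d with
    | none => ((mkv (dead U) t.toNat 0 0 zS, mkv 0 0 1 1 oS),
        (mkv (dead U) t.toNat (dig n U k) 0 zS, mkv 0 0 (Mh n U) 1 oS))
    | some (s', none) => ((mkv (nd U s.1) t.toNat 0 0 zS, mkv 0 0 1 1 oS),
        (mkv (nd U s') t.toNat (dig n U k) 0 zS, mkv 0 0 (Mh n U) 1 oS))
    | some (s', some (j, (m, c), (m', c'))) =>
      ((mkv (nd U s.1) t.toNat 0 0 (Function.update zS j c), mkv 0 0 1 1 (Function.update oS j m)),
        (mkv (nd U s') t.toNat (dig n U k) 0 (Function.update zS j c'),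
          mkv 0 0 (Mh n U) 1 (Function.update oS j m')))

/-- The link between the two tags. -/
def linkData : RData :=
  ((mkv (nd U TM.stop.1) 1 0 0 zS, mkv 0 0 1 1 zS),
    (mkv (nd U TM.stop.1) 0 0 0 zS, mkv 0 0 1 1 zS))

theorem mkv_zero_iff {a b c d a' b' c' d' : ℕ} {P Q : K' → ℕ} (ha : a = 0 ↔ a' = 0)
    (hb : b = 0 ↔ b' = 0) (hc : c = 0 ↔ c' = 0) (hd : d = 0 ↔ d' = 0) (hS : ∀ k, P k = 0 ↔ Q k = 0)
    (j : Fin 8) : mkv a b c d P j = 0 ↔ mkv a' b' c' d' Q j = 0 := by
  fin_cases j
  exacts [ha, hb, hc, hd, hS _, hS _, hS _, hS _]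

theorem mkv_lt {a b c d a' b' c' d' : ℕ} {S P : K' → ℕ} (ha : a' ≠ 0 → a < a') (hb : b' ≠ 0 → b < b')
    (hc : c' ≠ 0 → c < c') (hd : d' ≠ 0 → d < d') (hS : ∀ k, P k ≠ 0 → S k < P k)
    (j : Fin 8) (h : mkv a' b' c' d' P j ≠ 0) : mkv a b c d S j < mkv a' b' c' d' P j := by
  fin_cases j
  exacts [ha h, hb h, hc h, hd h, hS _ h, hS _ h, hS _ h, hS _ h]

theorem kdata_ok (k : Kind n U) (t : Bool) :
    (∀ j, (kdata n U k t).1.2 j = 0 ↔ (kdata n U k t).2.2 j = 0) ∧
      ∀ j, (kdata n U k t).1.2 j ≠ 0 → (kdata n U k t).1.1 j < (kdata n U k t).1.2 j := by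
  have hM : Mh n U ≠ 0 := by simp [Mh]
  have hD : DV n ≠ 0 := by simp [DV]
  rcases k with σ | _ | ⟨s, d⟩
  · exact ⟨mkv_zero_iff (by simp) (by simp) (by simp [hM]) (by simp [hD])
      (fun k => by cases k <;> simp [oS]), mkv_lt (by simp) (by simp) (by simp) (by simp)
      (fun k => by simp [zS, oS])⟩
  · exact ⟨mkv_zero_iff (by simp) (by simp) (by simp [hM]) (by simp) (fun k => by simp [oS]),
      mkv_lt (by simp) (by simp) (by simp) (by simp) (fun k => by simp [zS, oS])⟩
  · simp only [kdata]
    split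
    · exact ⟨mkv_zero_iff (by simp) (by simp) (by simp [hM]) (by simp) (fun k => by simp [oS]),
        mkv_lt (by simp) (by simp) (by simp) (by simp) (fun k => by simp [zS, oS])⟩
    · exact ⟨mkv_zero_iff (by simp) (by simp) (by simp [hM]) (by simp) (fun k => by simp [oS]),
        mkv_lt (by simp) (by simp) (by simp) (by simp) (fun k => by simp [zS, oS])⟩
    · rename_i s' j m c m' c' he
      obtain ⟨hc, -, hm, hm'⟩ := TM.act_bounds d.isLt he
      refine ⟨mkv_zero_iff (by simp) (by simp) (by simp [hM]) (by simp) (fun k => ?_),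
        mkv_lt (by simp) (by simp) (by simp) (by simp) (fun k => ?_)⟩ <;>
      · by_cases hk : k = j
        · subst hk; simp; omega
        · simp [hk, zS, oS]

theorem linkData_ok : (∀ j, (linkData U).1.2 j = 0 ↔ (linkData U).2.2 j = 0) ∧
    ∀ j, (linkData U).1.2 j ≠ 0 → (linkData U).1.1 j < (linkData U).1.2 j :=
  ⟨fun _ => Iff.rfl, mkv_lt (by simp) (by simp) (by simp) (by simp) (fun k => by simp [zS])⟩

/-- A state of one tree: guessing, or running on a guess. -/
inductive Sx (n : ℕ) where
  | guess (v : Wd (Fin n))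
  | run (v : Wd (Fin n)) (b : TM.St × TM.Stk)

/-- Its node is a node of the program. -/
def Sx.Okay {n : ℕ} : Sx n → Prop
  | .guess _ => True
  | .run _ b => b.1 ∈ U.T

/-- Its guess. -/
def Sx.word {n : ℕ} : Sx n → Wd (Fin n)
  | .guess v => v
  | .run v _ => v

/-- The numerals of four stacks. -/
def nums (S : TM.Stk) : K' → ℕ := fun k => TM.num (S k)

/-- The coordinates of a state. -/
def render (e : ℕ) (t : Bool) (h : ℕ) : Sx n → NV
  | .guess v => mkv 0 t.toNat h (Vc n v) (nums (TM.inputStk (nOf v) e))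
  | .run v b => mkv (nd U b.1) t.toNat h (Vc n v) (nums b.2)

open Classical in
/-- One step of a tree. -/
def semStep (e : ℕ) : Kind n U → Sx n → Option (Sx n)
  | .inl σ, .guess v => some (.guess (σ :: v))
  | .inr (.inl _), .guess v => some (.run v (U.start, TM.inputStk (nOf v) e))
  | .inr (.inr (s, d)), .run v b =>
    if b.1 = s.1 ∧ TM.Sees b.1 b.2 d then (TM.micro b.1 b.2).map (Sx.run v) else none
  | _, _ => none

theorem semStep_okay {e : ℕ} {k : Kind n U} {X Y : Sx n} (hX : X.Okay U)
    (h : semStep n U e k X = some Y) : Y.Okay U := by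
  rcases k with σ | _ | ⟨s, d⟩ <;> rcases X with v | ⟨v, b⟩ <;> simp [semStep] at h
  · subst h; trivial
  · subst h; exact U.hstart
  · obtain ⟨-, y⟩ := h
    cases hm : TM.micro b.1 b.2 with
    | none => simp [hm] at y
    | some z =>
      simp [hm] at y
      obtain ⟨_, _, _, rfl, rfl⟩ := y
      exact U.closed _ hX _ _ hm

theorem nOf_pos {n : ℕ} (v : Wd (Fin n)) : 0 < nOf v := by
  induction v with
  | nil => simp [nOf]
  | cons σ v ih => simp only [nOf]; positivity

theorem push_main (σ : Fin n × Bool) (v : Wd (Fin n)) (e : ℕ) :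
    TM.num (TM.inputStk (nOf (σ :: v)) e .main) =
      push n σ + 5 ^ (2 * n) * TM.num (TM.inputStk (nOf v) e .main) := by
  have hc : 2 * (σ.1 : ℕ) + σ.2.toNat < 2 ^ (2 * n) := by
    have := σ.1.isLt
    have := Nat.lt_two_pow_self (n := 2 * n)
    have : σ.2.toNat ≤ 1 := Bool.toNat_le _
    omega
  simp only [TM.inputStk, nOf, K'.elim_main, trList,
    TM.trNat_block (nOf_pos v).ne' _ _ hc, List.append_assoc, TM.num_append (TM.bits _ _),
    TM.bits_length, push]
  ring

theorem fwd_render {e : ℕ} {X : Sx n} (hX : X.Okay U) (k : Kind n U) (t t' : Bool) (h : ℕ) :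
    fwd (kdata n U k t) (render n U e t' h X) =
      if t' = t then (semStep n U e k X).map (render n U e t (Mh n U * h + dig n U k)) else none := by
  classical
  have htag : t'.toNat = t.toNat ↔ t' = t := by cases t <;> cases t' <;> simp
  rcases k with σ | _ | ⟨s, d⟩
  · rcases X with v | ⟨v, b⟩
    · simp only [kdata, render, fwd_mkv, ok_pin, htag]
      by_cases ht : t' = t
      · subst ht
        rw [if_pos ⟨trivial, rfl, ok_free _, ok_free _, fun k => ok_free _⟩, if_pos rfl]
        simp only [semStep, Option.map_some, render, out_pin, out_free, Option.some.injEq]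
        rw [Nat.add_comm (dig n U _), Nat.add_comm (lcode n σ)]
        congr 1
        funext k
        by_cases hk : k = K'.main
        · subst hk; simp [zS, oS, out, nums, push_main]
        · cases k <;> first | exact absurd rfl hk | simp [zS, oS, out, nums, TM.inputStk]
      · simp [ht]
    · have := nd_bounds U hX
      simp only [kdata, render, fwd_mkv, ok_pin]
      rw [if_neg (by omega)]
      simp [semStep]
  · rcases X with v | ⟨v, b⟩
    · simp only [kdata, render, fwd_mkv, ok_pin, htag]
      by_cases ht : t' = t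
      · subst ht
        rw [if_pos ⟨trivial, rfl, ok_free _, ok_free _, fun k => ok_free _⟩, if_pos rfl]
        simp only [semStep, Option.map_some, render, out_pin, out_free, Option.some.injEq]
        rw [Nat.add_comm (dig n U _), Nat.zero_add, Nat.one_mul]
        congr 1
        funext k
        simp [zS, oS, out, nums]
      · simp [ht]
    · have := nd_bounds U hX
      simp only [kdata, render, fwd_mkv, ok_pin]
      rw [if_neg (by omega)]
      simp [semStep]
  · rcases X with v | ⟨v, ⟨b, S⟩⟩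
    · have h1 := nd_bounds U s.2
      have h2 : dead U ≠ 0 := by simp [dead]
      simp only [kdata, semStep, Option.map_none, ite_self]
      split <;> simp only [render, fwd_mkv, ok_pin] <;> rw [if_neg (by omega)]
    · replace hX : b ∈ U.T := hX
      have h1 := nd_bounds U hX
      have hnd : nd U b = nd U s.1 ↔ b = s.1 := ⟨nd_inj U hX s.2, fun e => by rw [e]⟩
      simp only [kdata]
      split
      · rename_i hnone
        have hs : ¬ (b = s.1 ∧ TM.Sees b S d) := by
          rintro ⟨rfl, hh⟩
          simp [TM.Sees, hnone] at hh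
        simp only [render, fwd_mkv, ok_pin, semStep, if_neg hs, Option.map_none, ite_self]
        rw [if_neg (by omega)]
      · rename_i s' he
        simp only [render, fwd_mkv, ok_pin, htag, hnd, semStep]
        by_cases hb : t' = t ∧ b = s.1
        · obtain ⟨rfl, rfl⟩ := hb
          have hs : TM.Sees s.1 S d := by simp [TM.Sees, he]
          obtain ⟨s'', S', o, hm, ha, ho⟩ := TM.micro_act hs
          rw [he] at ha
          obtain ⟨rfl, rfl⟩ : s' = s'' ∧ none = o := by simpa using ha
          simp only at ho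
          rw [if_pos ⟨rfl, rfl, ok_free _, ok_free _, fun k => ok_free _⟩, if_pos rfl,
            if_pos ⟨rfl, hs⟩, hm]
          simp only [Option.map_some, render, out_pin, out_free, Option.some.injEq, ho]
          rw [Nat.add_comm (dig n U _), Nat.zero_add, Nat.one_mul]
          congr 1
          funext k
          simp [zS, oS, out, nums]
        · rw [if_neg (fun hh => hb ⟨hh.2.1, hh.1⟩)]
          by_cases ht : t' = t
          · rw [if_pos ht, if_neg (fun hh => hb ⟨ht, hh.1⟩)]
            rfl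
          · rw [if_neg ht]
      · rename_i s' j m c m' c' he
        obtain ⟨hcm, -, -, -⟩ := TM.act_bounds d.isLt he
        simp only [render, fwd_mkv, ok_pin, htag, hnd, semStep]
        by_cases hb : t' = t ∧ b = s.1 ∧ TM.num (S j) % m = c
        · obtain ⟨rfl, rfl, hd⟩ := hb
          have hs : TM.Sees s.1 S d := by simp [TM.Sees, he, hd]
          obtain ⟨s'', S', o, hm, ha, ho⟩ := TM.micro_act hs
          rw [he] at ha
          obtain ⟨rfl, rfl⟩ : s' = s'' ∧ some (j, (m, c), (m', c')) = o := by simpa using ha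
          obtain ⟨-, ho2, ho3⟩ := ho
          have hok : ∀ k, Ok (Function.update zS j c k) (Function.update oS j m k) (nums S k) := fun k => by
            by_cases hk : k = j
            · subst hk
              simp only [Function.update_self, nums]
              exact (ok_res hcm).2 hd
            · simpa [hk, zS, oS] using ok_free _
          rw [if_pos ⟨rfl, rfl, ok_free _, ok_free _, hok⟩, if_pos rfl, if_pos ⟨rfl, hs⟩, hm]
          · simp only [Option.map_some, render, out_pin, out_free, Option.some.injEq]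
            rw [Nat.add_comm (dig n U _), Nat.zero_add, Nat.one_mul]
            congr 1
            funext k
            by_cases hk : k = j
            · subst hk
              simp only [Function.update_self, nums]
              rw [out_res hd (by omega), ho2]
            · simp [hk, zS, oS, out, nums, ho3 k hk]
        · rw [if_neg]
          · by_cases ht : t' = t
            · rw [if_pos ht, if_neg]
              · rfl
              · rintro ⟨rfl, hs⟩
                simp [TM.Sees, he] at hs
                exact hb ⟨ht, rfl, hs⟩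
            · rw [if_neg ht]
          · rintro ⟨rfl, ht, -, -, hS⟩
            have := hS j
            simp only [Function.update_self, nums] at this
            exact hb ⟨ht, rfl, (ok_res hcm).1 this⟩

theorem fwd_link {e : ℕ} {X : Sx n} (hX : X.Okay U) (t : Bool) (h : ℕ) (y : NV) :
    fwd (linkData U) (render n U e t h X) = some y ↔
      t = true ∧ (∃ v, X = .run v TM.stop) ∧ y = render n U e false h X := by
  classical
  have hs := nd_bounds U U.hstop
  rcases X with v | ⟨v, ⟨b, S⟩⟩
  · simp only [linkData, render, fwd_mkv, ok_pin]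
    rw [if_neg (by omega)]
    simp
  · have hnd : nd U b = nd U TM.stop.1 ↔ b = TM.stop.1 := ⟨nd_inj U hX U.hstop, fun e => by rw [e]⟩
    simp only [linkData, render, fwd_mkv, ok_pin, hnd]
    have hS : (∀ k, nums S k = zS k) ↔ S = TM.stop.2 := by
      simp [nums, zS, TM.stop, funext_iff, TM.num_eq_zero]
    have ht : t.toNat = 1 ↔ t = true := by cases t <;> simp
    have hok : (b = TM.stop.1 ∧ t.toNat = 1 ∧ Ok 0 1 h ∧ Ok 0 1 (Vc n v) ∧ ∀ k, Ok (zS k) (zS k) (nums S k))
        ↔ t = true ∧ b = TM.stop.1 ∧ S = TM.stop.2 := by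
      simp [ok_free, ok_pin, zS, ← hS, ht]
      tauto
    simp only [hok]
    by_cases hh : t = true ∧ b = TM.stop.1 ∧ S = TM.stop.2
    · obtain ⟨rfl, rfl, rfl⟩ := hh
      have hz : (fun k => zS k) = nums TM.stop.2 := by funext k; simp [zS, nums, TM.stop, TM.num]
      simp [out_pin, out_free, zS] at hz ⊢
      simp [hz, eq_comm]
    · simp only [if_neg hh, reduceCtorEq, false_iff, not_and]
      rintro rfl ⟨v', hv⟩
      cases hv
      exact absurd ⟨rfl, rfl, rfl⟩ hh

end

end Vale.P193
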