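import Vale.Agent.P193.Mach.Rules

/-!
P193: the universal machine. A configuration reachable from a root is described by its tag and the list of rules
recorded in its history, so reachability from a root is decidable.
-/

namespace Vale.P193

open Turing.PartrecToTM2 Calc

variable (n : ℕ) (U : Univ)

noncomputable section

open Classical

/-- The indices of the rules. -/
abbrev RI := (Kind n U × Bool) ⊕ Unit

/-- The number of a rule. -/
def ridx (i : RI n U) : Fin (Fintype.card (RI n U)) := Fintype.equivFin (RI n U) i

/-- The rules. -/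
def ruleOf : RI n U → Rule 8
  | .inl (k, t) => mkRule (kdata n U k t) (kdata_ok n U k t).1
  | .inr _ => mkRule (linkData U) (linkData_ok U).1

/-- The letter contributed by a guessing rule. -/
def kword : Kind n U → Wd (Fin n)
  | .inl σ => [σ]
  | _ => []

/-- The guess as seen with a tag. -/
def tagged {α : Type} (t : Bool) (v : List α) : List α := if t then v else []

/-- The words carried by the rules. -/
def twOf : RI n U → Wd (Fin n)
  | .inl (k, t) => tagged t (kword n U k)
  | .inr _ => []

/-- The two roots of a parameter, on natural coordinates. -/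
def rootNV (t : Bool) (e : ℕ) : NV := render n U e t 0 (.guess [])

/-- The universal machine. -/
def umach : Mach (Fin n) where
  d := 8
  nr := Fintype.card (RI n U)
  rule i := ruleOf n U ((Fintype.equivFin (RI n U)).symm i)
  tw i := twOf n U ((Fintype.equivFin (RI n U)).symm i)
  root0 e := Calc.cast (rootNV n U false e)
  root1 e := Calc.cast (rootNV n U true e)

theorem umach_rule (i : RI n U) : (umach n U).rule (ridx n U i) = ruleOf n U i := by
  simp [umach, ridx]

theorem umach_tw (i : RI n U) : (umach n U).tw (ridx n U i) = twOf n U i := by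
  simp [umach, ridx]

theorem ridx_surjective (i : Fin (umach n U).nr) : ∃ j, ridx n U j = i :=
  ⟨(Fintype.equivFin (RI n U)).symm i, Equiv.apply_symm_apply _ i⟩

/-- The history of a list of rules, latest first. -/
def hist : List (Kind n U) → ℕ
  | [] => 0
  | k :: l => Mh n U * hist l + dig n U k

/-- The state reached by a list of rules, latest first. -/
def semRun (e : ℕ) : List (Kind n U) → Option (Sx n)
  | [] => some (.guess [])
  | k :: l => (semRun e l).bind (semStep n U e k)

/-- What is known of a state of a tree. -/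
def Sx.Good (e : ℕ) : Sx n → Prop
  | .guess _ => True
  | .run v b => b.1 ∈ U.T ∧ Relation.ReflTransGen TM.MR (U.start, TM.inputStk (nOf v) e) b

theorem Sx.Good.okay {e : ℕ} {X : Sx n} (h : X.Good n U e) : X.Okay U := by
  cases X with
  | guess v => trivial
  | run v b => exact h.1

theorem semStep_good {e : ℕ} {k : Kind n U} {X Y : Sx n} (hX : X.Good n U e)
    (h : semStep n U e k X = some Y) : Y.Good n U e ∧ Y.word = kword n U k ++ X.word := by
  rcases k with σ | _ | ⟨s, d⟩ <;> rcases X with v | ⟨v, b⟩ <;> simp [semStep] at h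
  · subst h; exact ⟨trivial, rfl⟩
  · subst h; exact ⟨⟨U.hstart, .refl⟩, rfl⟩
  · obtain ⟨-, y⟩ := h
    cases hm : TM.micro b.1 b.2 with
    | none => simp [hm] at y
    | some z =>
      simp [hm] at y
      obtain ⟨_, _, _, rfl, rfl⟩ := y
      exact ⟨⟨U.closed _ hX.1 _ _ hm, hX.2.tail hm⟩, rfl⟩

theorem semRun_good {e : ℕ} {l : List (Kind n U)} {X : Sx n} (h : semRun n U e l = some X) :
    X.Good n U e := by
  induction l generalizing X with
  | nil => cases h; trivial
  | cons k l ih =>
    obtain ⟨Y, hY, hk⟩ := Option.bind_eq_some_iff.1 h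
    exact (semStep_good n U (ih hY) hk).1

theorem digs_hist (l : List (Kind n U)) : digs (Mh n U) (hist n U l) = l.map (dig n U) := by
  induction l with
  | nil => simp [hist, digs]
  | cons k l ih =>
    obtain ⟨h1, h2⟩ := dig_lt n U k
    rw [hist, digs_cons h1 h2, ih, List.map_cons]

theorem digs_Vc (v : Wd (Fin n)) : digs (DV n) (Vc n v) = v.map (lcode n) := by
  induction v with
  | nil => simp [Vc, digs]
  | cons k l ih =>
    obtain ⟨h1, h2⟩ := lcode_bounds n k
    rw [Vc, digs_cons h1 h2, ih, List.map_cons]

theorem kdata_fwd_run {e : ℕ} {l : List (Kind n U)} {X : Sx n} (h : semRun n U e l = some X)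
    (k : Kind n U) (t t' : Bool) :
    fwd (kdata n U k t) (render n U e t' (hist n U l) X) =
      if t' = t then (semRun n U e (k :: l)).map (render n U e t (hist n U (k :: l))) else none := by
  rw [fwd_render n U (semRun_good n U h).okay, semRun, h]
  rfl

/-- A configuration of a tree. -/
def Gen (e : ℕ) (c : Cfg 8) : Prop :=
  ∃ t l X, semRun n U e l = some X ∧ c = Calc.cast (render n U e t (hist n U l) X)

/-! ### Decidability -/

/-- The rule with a given digit, applied. -/
def dstep (t : Bool) (d : ℕ) (x : NV) : Option NV :=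
  if d = 0 then none else
    ((List.ofFn fun i => kdata n U ((Fintype.equivFin (Kind n U)).symm i) t)[d - 1]?).bind (fwd · x)

/-- The configuration with a given history. -/
def check (t : Bool) (e : ℕ) (L : List ℕ) : Option NV :=
  L.foldr (fun d acc => acc.bind (dstep n U t d)) (some (rootNV n U t e))

theorem dstep_eq_some {t : Bool} {d : ℕ} {x y : NV} :
    dstep n U t d x = some y ↔ ∃ k, d = dig n U k ∧ fwd (kdata n U k t) x = some y := by
  unfold dstep
  constructor
  · intro h
    split_ifs at h with hd
    obtain ⟨r, hr, hy⟩ := Option.bind_eq_some_iff.1 h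
    obtain ⟨hlt, hr⟩ := List.getElem?_eq_some_iff.1 hr
    rw [List.getElem_ofFn] at hr
    exact ⟨_, by simp [dig]; omega, hr ▸ hy⟩
  · rintro ⟨k, rfl, hy⟩
    rw [if_neg (dig_lt n U k).1.ne', Option.bind_eq_some_iff]
    refine ⟨kdata n U k t, List.getElem?_eq_some_iff.2 ⟨?_, ?_⟩, hy⟩
    · rw [List.length_ofFn, dig, Nat.add_sub_cancel]
      exact (Fintype.equivFin _ k).isLt
    · simp [dig]

theorem check_eq_some {t : Bool} {e : ℕ} {L : List ℕ} {y : NV} :
    check n U t e L = some y ↔
      ∃ l X, L = l.map (dig n U) ∧ semRun n U e l = some X ∧ y = render n U e t (hist n U l) X := by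
  induction L generalizing y with
  | nil =>
    constructor
    · intro h
      exact ⟨[], _, rfl, rfl, (Option.some.inj h).symm⟩
    · rintro ⟨_ | ⟨k, l⟩, X, hL, hX, rfl⟩
      · cases hX; rfl
      · simp at hL
  | cons d L ih =>
    rw [show check n U t e (d :: L) = (check n U t e L).bind (dstep n U t d) from rfl,
      Option.bind_eq_some_iff]
    simp only [dstep_eq_some, ih]
    constructor
    · rintro ⟨x, ⟨l, X, rfl, hl, rfl⟩, k, rfl, hy⟩
      rw [kdata_fwd_run n U hl, if_pos rfl, Option.map_eq_some_iff] at hy
      obtain ⟨Y, hY, rfl⟩ := hy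
      exact ⟨k :: l, Y, rfl, hY, rfl⟩
    · rintro ⟨_ | ⟨k, l⟩, Y, hL, hY, rfl⟩
      · simp at hL
      rw [List.map_cons, List.cons.injEq] at hL
      obtain ⟨rfl, rfl⟩ := hL
      obtain ⟨X, hX, -⟩ := Option.bind_eq_some_iff.1 hY
      exact ⟨_, ⟨l, X, rfl, hX, rfl⟩, k, rfl, by rw [kdata_fwd_run n U hX, if_pos rfl, hY]; rfl⟩

theorem gen_iff (e : ℕ) (c : Cfg 8) :
    Gen n U e c ↔ ∃ t, (check n U t e (digs (Mh n U) (c 2).toNat)).map Calc.cast = some c := by
  simp only [Option.map_eq_some_iff, check_eq_some]
  constructor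
  · rintro ⟨t, l, X, hl, rfl⟩
    have hc : Calc.cast (render n U e t (hist n U l) X) 2 = (hist n U l : ℤ) := by cases X <;> rfl
    exact ⟨t, _, ⟨l, X, by rw [hc, Int.toNat_natCast, digs_hist], hl, rfl⟩, rfl⟩
  · rintro ⟨t, y, ⟨l, X, -, hl, rfl⟩, rfl⟩
    exact ⟨t, l, X, hl, rfl⟩

theorem primrec_rootNV (t : Bool) : Primrec (rootNV n U t) := by
  have hp : Primrec fun e : ℕ => 5 ^ (e + 1) :=
    (Primrec.nat_rec₁ 5 (Primrec.nat_mul.comp₂ Primrec₂.right (Primrec₂.const 5))).of_eq
      fun e => by induction e with
      | zero => rfl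
      | succ e ih => simp [ih, pow_succ]
  have hr : Primrec TM.rootNum :=
    (Primrec.nat_add.comp (Primrec.nat_mul.comp (Primrec.const 5)
      (Primrec.nat_add.comp (Primrec.nat_mul.comp (Primrec.const 5)
        (Primrec.nat_add.comp (Primrec.nat_mul.comp hp (Primrec.const 2))
          (Primrec.nat_sub.comp hp (Primrec.const 1)))) (Primrec.const 2))) (Primrec.const 4)).of_eq
      fun _ => rfl
  have h : ∀ j, Primrec fun e => rootNV n U t e j := by
    intro j
    fin_cases j
    exacts [Primrec.const _, Primrec.const _, Primrec.const _, Primrec.const _,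
      hr.of_eq fun e => show TM.rootNum e = TM.num (TM.inputStk (nOf ([] : Wd (Fin n))) e .main) from
        (TM.num_root e).symm,
      Primrec.const _, Primrec.const _, Primrec.const _]
  exact Primrec.fin_curry.2 ((Primrec.fin_curry₁.2 h).comp Primrec.snd Primrec.fst).to₂

theorem primrec_check (t : Bool) :
    Primrec fun p : ℕ × Cfg 8 => (check n U t p.1 (digs (Mh n U) (p.2 2).toNat)).map Calc.cast := by
  have hstep : Primrec₂ (dstep n U t) :=
    (Primrec.ite (Primrec.eq.comp Primrec.fst (Primrec.const 0)) (Primrec.const none)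
      (Primrec.option_bind (Primrec.list_getElem?.comp (Primrec.const _)
        (Primrec.nat_sub.comp Primrec.fst (Primrec.const 1)))
        (fwd_primrec.comp Primrec.snd (Primrec.snd.comp Primrec.fst)).to₂)).to₂
  refine Primrec.option_map ?_ (primrec_cast.comp Primrec.snd).to₂
  refine Primrec.list_foldr (h := fun _ q => q.2.bind (dstep n U t q.1))
    ((digs_primrec (Mh n U) (by unfold Mh; omega)).comp (primrec_toNat.comp
      (Primrec.fin_app.comp Primrec.snd (Primrec.const (2 : Fin 8)))))
    (Primrec.option_some.comp ((primrec_rootNV n U t).comp Primrec.fst)) ?_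
  exact (Primrec.option_bind (Primrec.snd.comp Primrec.snd)
    (hstep.comp (Primrec.fst.comp (Primrec.snd.comp Primrec.fst)) Primrec.snd).to₂).to₂

theorem gen_computable : ComputablePred fun p : ℕ × Cfg 8 => Gen n U p.1 p.2 := by
  refine ComputablePred.computable_iff.2 ⟨fun p =>
    decide ((check n U true p.1 (digs (Mh n U) (p.2 2).toNat)).map Calc.cast = some p.2) ||
      decide ((check n U false p.1 (digs (Mh n U) (p.2 2).toNat)).map Calc.cast = some p.2), ?_, ?_⟩
  · exact (Primrec.or.comp
      (Primrec.eq.decide.comp (primrec_check n U true) (Primrec.option_some.comp Primrec.snd))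
      (Primrec.eq.decide.comp (primrec_check n U false) (Primrec.option_some.comp Primrec.snd))).to_comp
  · funext p
    simp [gen_iff, Bool.exists_bool, or_comm]

/-! ### The guess -/

/-- The letter with a given digit. -/
def letterOf (d : ℕ) : Option (Fin n × Bool) :=
  if d = 0 then none else (List.ofFn (Fintype.equivFin (Fin n × Bool)).symm)[d - 1]?

/-- The guess stored in a configuration, seen with its tag. -/
def offOf (c : Cfg 8) : Wd (Fin n) :=
  if c 1 = 1 then (digs (DV n) (c 3).toNat).filterMap (letterOf n) else []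

theorem offOf_render (e : ℕ) (t : Bool) (h : ℕ) (X : Sx n) :
    offOf n (Calc.cast (render n U e t h X)) = tagged t X.word := by
  have hl : ∀ v : Wd (Fin n), (v.map (lcode n)).filterMap (letterOf n) = v := by
    intro v
    rw [List.filterMap_map]
    rw [show letterOf n ∘ lcode n = some from funext fun σ => ?_, List.filterMap_some]
    rw [Function.comp_apply, letterOf, if_neg (lcode_bounds n σ).1.ne', List.getElem?_eq_some_iff]
    refine ⟨?_, ?_⟩
    · rw [List.length_ofFn, lcode, Nat.add_sub_cancel]
      exact (Fintype.equivFin _ σ).isLt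
    · simp [lcode]
  have h1 : Calc.cast (render n U e t h X) 1 = (t.toNat : ℤ) := by cases X <;> rfl
  have h3 : Calc.cast (render n U e t h X) 3 = (Vc n X.word : ℤ) := by cases X <;> rfl
  rw [offOf, h1, h3, Int.toNat_natCast, digs_Vc, hl]
  cases t <;> simp [tagged]

theorem offOf_comp : Computable (offOf n) := by
  refine Primrec.to_comp (Primrec.ite (Primrec.eq.comp (Primrec.fin_app.comp Primrec.id (Primrec.const (1 : Fin 8)))
    (Primrec.const 1)) ?_ (Primrec.const []))
  exact Primrec.listFilterMap ((digs_primrec (DV n) (by simp [DV])).comp (primrec_toNat.comp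
    (Primrec.fin_app.comp Primrec.id (Primrec.const (3 : Fin 8)))))
    ((Primrec.ite (Primrec.eq.comp Primrec.id (Primrec.const 0)) (Primrec.const none)
      (Primrec.list_getElem?.comp (Primrec.const _)
        (Primrec.nat_sub.comp Primrec.id (Primrec.const 1)))).comp Primrec.snd).to₂

theorem offOf_len (c : Cfg 8) (N : ℕ) (h : |c 3| < (DV n : ℤ) ^ N) : (offOf n c).length ≤ N := by
  unfold offOf
  split_ifs
  · refine le_trans (List.length_filterMap_le _ _) (digs_length (by simp [DV]) _ _ ?_)
    have h' : ((c 3).toNat : ℤ) < (DV n : ℤ) ^ N := by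
      rcases le_total 0 (c 3) with hc | hc
      · rw [Int.toNat_of_nonneg hc]; exact (le_abs_self _).trans_lt h
      · rw [Int.toNat_eq_zero.2 hc]; exact lt_of_le_of_lt (abs_nonneg _) h
    exact_mod_cast h'
  · simp

end

end Vale.P193
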